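import Vale.Agent.P281.H83.HK.Defs

/-!
# P281, project T-HKT (helper191): products of 1-forms in `W`

If the factors of `W` at the places `i ∈ J` are products `l (i, 0) ∧ l (i, 1)` of 1-forms, `W` is
alternating in the `l`: a linear substitution of them multiplies `W` by its determinant.
-/

open Set Filter Vale.Agent.P272.K
open scoped Topology ContDiff ComplexConjugate ComplexOrder

noncomputable section

namespace Vale.Agent.P281.H191.HKT

open Vale.Agent.P281.H64.TK Vale.Agent.P281.H64.TK.TS
open Vale.Agent.P281.H83.HK (W rb mkL)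

variable {d : ℕ}

/-- The 2-form `a ∧ b`. -/
def w2 (a b : L1 d) : L2 d :=
  mkL (LinearMap.mk₂ ℝ (fun u v : Cm d => a u * b v - a v * b u)
    (by
      intro u u' v
      simp only [map_add]
      ring)
    (by
      intro c u v
      simp only [map_smul, Complex.real_smul]
      ring)
    (by
      intro u v v'
      simp only [map_add]
      ring)
    (by
      intro c u v
      simp only [map_smul, Complex.real_smul]
      ring))

@[simp] theorem w2_apply (a b : L1 d) (u v : Cm d) : w2 a b u v = a u * b v - a v * b u := rfl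

/-- The sum over the permutations, with products of values of 1-forms at the places of `J`. -/
def V (J : Finset (Fin d)) (a : Fin d → L2 d) (l : Fin d × Fin 2 → L1 d) : ℂ :=
  ∑ π : Equiv.Perm (Fin d × Fin 2), ((Equiv.Perm.sign π : ℤ) : ℂ) *
    ((∏ i ∈ Finset.univ \ J, a i (rb (π (i, 0))) (rb (π (i, 1)))) *
      ∏ i ∈ J, (l (i, 0) (rb (π (i, 0))) * l (i, 1) (rb (π (i, 1)))))

theorem V_insert (J : Finset (Fin d)) (a : Fin d → L2 d) (l : Fin d × Fin 2 → L1 d) (j : Fin d)
    (hj : j ∉ J) (h : ∀ u v, a j u v = l (j, 0) u * l (j, 1) v - l (j, 0) v * l (j, 1) u) :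
    V J a l = 2 * V (insert j J) a l := by
  classical
  unfold V
  have hsd : Finset.univ \ J = insert j (Finset.univ \ insert j J) := by
    ext i
    simp only [Finset.mem_sdiff, Finset.mem_univ, true_and, Finset.mem_insert, not_or]
    constructor
    · intro h
      by_cases hi : i = j
      · exact Or.inl hi
      · exact Or.inr ⟨hi, h⟩
    · rintro (rfl | h)
      · exact hj
      · exact h.2
  have hnj : j ∉ Finset.univ \ insert j J := by simp
  set X : Equiv.Perm (Fin d × Fin 2) → ℂ := fun π =>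
    ((Equiv.Perm.sign π : ℤ) : ℂ) *
      ((∏ i ∈ Finset.univ \ insert j J, a i (rb (π (i, 0))) (rb (π (i, 1)))) *
      ∏ i ∈ insert j J, (l (i, 0) (rb (π (i, 0))) * l (i, 1) (rb (π (i, 1))))) with hX
  let s : Equiv.Perm (Fin d × Fin 2) := Equiv.swap (j, 0) (j, 1)
  have hs : Equiv.Perm.sign s = -1 := Equiv.Perm.sign_swap (by simp)
  have key : ∀ π : Equiv.Perm (Fin d × Fin 2), ((Equiv.Perm.sign π : ℤ) : ℂ) *
      ((∏ i ∈ Finset.univ \ J, a i (rb (π (i, 0))) (rb (π (i, 1)))) *
      ∏ i ∈ J, (l (i, 0) (rb (π (i, 0))) * l (i, 1) (rb (π (i, 1))))) = X π + X (π * s) := by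
    intro π
    have s0 : s (j, 0) = (j, 1) := Equiv.swap_apply_left _ _
    have s1 : s (j, 1) = (j, 0) := Equiv.swap_apply_right _ _
    have sne : ∀ i, i ≠ j → ∀ e, s (i, e) = (i, e) := fun i hi e =>
      Equiv.swap_apply_of_ne_of_ne (by simp [hi]) (by simp [hi])
    have e1 : ∏ i ∈ Finset.univ \ insert j J, a i (rb ((π * s) (i, 0))) (rb ((π * s) (i, 1))) =
        ∏ i ∈ Finset.univ \ insert j J, a i (rb (π (i, 0))) (rb (π (i, 1))) := by
      refine Finset.prod_congr rfl fun i hi => ?_
      have hij : i ≠ j := by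
        rintro rfl
        exact hnj hi
      simp only [Equiv.Perm.mul_apply, sne i hij]
    have e2 : ∏ i ∈ J, (l (i, 0) (rb ((π * s) (i, 0))) * l (i, 1) (rb ((π * s) (i, 1)))) =
        ∏ i ∈ J, (l (i, 0) (rb (π (i, 0))) * l (i, 1) (rb (π (i, 1)))) := by
      refine Finset.prod_congr rfl fun i hi => ?_
      have hij : i ≠ j := by
        rintro rfl
        exact hj hi
      simp only [Equiv.Perm.mul_apply, sne i hij]
    simp only [hX]
    rw [Finset.prod_insert hj, Finset.prod_insert hj, e1, e2, hsd, Finset.prod_insert hnj,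
      Equiv.Perm.sign_mul, hs]
    simp only [Equiv.Perm.mul_apply, s0, s1, h]
    push_cast
    ring
  rw [Finset.sum_congr rfl fun π _ => key π, Finset.sum_add_distrib]
  have : ∑ π, X (π * s) = ∑ π, X π :=
    Fintype.sum_equiv (Equiv.mulRight s) _ _ fun π => rfl
  rw [this]
  ring

theorem V_full (J : Finset (Fin d)) (a : Fin d → L2 d) (l : Fin d × Fin 2 → L1 d)
    (h : ∀ j ∈ J, ∀ u v, a j u v = l (j, 0) u * l (j, 1) v - l (j, 0) v * l (j, 1) u) :
    V ∅ a l = 2 ^ J.card * V J a l := by
  classical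
  induction J using Finset.induction_on with
  | empty => simp
  | insert j J hj ih =>
    rw [ih fun i hi => h i (Finset.mem_insert_of_mem hi),
      V_insert J a l j hj (h j (Finset.mem_insert_self j J)), Finset.card_insert_of_notMem hj,
      pow_succ]
    ring

theorem W_eq_V (J : Finset (Fin d)) (a : Fin d → L2 d) (l : Fin d × Fin 2 → L1 d)
    (h : ∀ j ∈ J, ∀ u v, a j u v = l (j, 0) u * l (j, 1) v - l (j, 0) v * l (j, 1) u) :
    W a = ((2 : ℂ) ^ d)⁻¹ * (2 ^ J.card * V J a l) := by
  rw [← V_full J a l h]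
  unfold W V
  congr 1
  refine Finset.sum_congr rfl fun π _ => ?_
  simp

/-! ### The alternating map -/

/-- The 1-forms at the places of `J`. -/
def ext (J : Finset (Fin d)) (l : J × Fin 2 → L1 d) (q : Fin d × Fin 2) : L1 d :=
  if h : q.1 ∈ J then l (⟨q.1, h⟩, q.2) else 0

theorem ext_mem {J : Finset (Fin d)} (l : J × Fin 2 → L1 d) {i : Fin d} (h : i ∈ J) (e : Fin 2) :
    ext J l (i, e) = l (⟨i, h⟩, e) := by
  unfold ext
  simp [h]

/-- `V` as a sum over the permutations, with one product over `J × Fin 2`. -/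
theorem V_ext (J : Finset (Fin d)) (a : Fin d → L2 d) (l : J × Fin 2 → L1 d) :
    V J a (ext J l) = ∑ π : Equiv.Perm (Fin d × Fin 2), ((Equiv.Perm.sign π : ℤ) : ℂ) *
      ((∏ i ∈ Finset.univ \ J, a i (rb (π (i, 0))) (rb (π (i, 1)))) *
        ∏ q : J × Fin 2, l q (rb (π (q.1.1, q.2)))) := by
  classical
  unfold V
  refine Finset.sum_congr rfl fun π _ => ?_
  congr 2
  rw [Fintype.prod_prod_type]
  rw [← Finset.prod_coe_sort J fun i => ext J l (i, 0) (rb (π (i, 0))) *
    ext J l (i, 1) (rb (π (i, 1)))]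
  refine Finset.prod_congr rfl fun i _ => ?_
  rw [Fin.prod_univ_two, ext_mem l i.2, ext_mem l i.2]

/-- The value at `v`. -/
def evl (v : Cm d) : L1 d →ₗ[ℂ] ℂ where
  toFun l := l v
  map_add' _ _ := rfl
  map_smul' _ _ := rfl

/-- `V` as a multilinear map. -/
def VM (J : Finset (Fin d)) (a : Fin d → L2 d) : MultilinearMap ℂ (fun _ : J × Fin 2 => L1 d) ℂ :=
  ∑ π : Equiv.Perm (Fin d × Fin 2), (((Equiv.Perm.sign π : ℤ) : ℂ) *
      (∏ i ∈ Finset.univ \ J, a i (rb (π (i, 0))) (rb (π (i, 1))))) •
    (MultilinearMap.mkPiAlgebra ℂ (J × Fin 2) ℂ).compLinearMap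
      fun q => evl (rb (π (q.1.1, q.2)))

theorem VM_apply (J : Finset (Fin d)) (a : Fin d → L2 d) (l : J × Fin 2 → L1 d) :
    VM J a l = V J a (ext J l) := by
  rw [V_ext]
  unfold VM
  rw [sum_apply]
  refine Finset.sum_congr rfl fun π _ => ?_
  rw [smul_apply, smul_eq_mul, mul_assoc]
  rfl

/-- `V` as an alternating map of the 1-forms at the places of `J`. -/
def VA (J : Finset (Fin d)) (a : Fin d → L2 d) : L1 d [⋀^(J × Fin 2)]→ₗ[ℂ] ℂ :=
  { VM J a with
    map_eq_zero_of_eq' := by
      intro l p q hpq hne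
      classical
      show VM J a l = 0
      rw [VM_apply, V_ext]
      let em : J × Fin 2 → Fin d × Fin 2 := fun r => (r.1.1, r.2)
      have hem : Function.Injective em := by
        rintro ⟨⟨i, hi⟩, e⟩ ⟨⟨j, hj⟩, f⟩ h
        simp only [em, Prod.mk.injEq] at h
        obtain ⟨rfl, rfl⟩ := h
        rfl
      let s : Equiv.Perm (Fin d × Fin 2) := Equiv.swap (em p) (em q)
      let t : Equiv.Perm (J × Fin 2) := Equiv.swap p q
      have hs : Equiv.Perm.sign s = -1 := Equiv.Perm.sign_swap (hem.ne hne)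
      have hst : ∀ r, s (em r) = em (t r) := by
        intro r
        simp only [s, t]
        by_cases h1 : r = p
        · subst h1
          rw [Equiv.swap_apply_left, Equiv.swap_apply_left]
        · by_cases h2 : r = q
          · subst h2
            rw [Equiv.swap_apply_right, Equiv.swap_apply_right]
          · rw [Equiv.swap_apply_of_ne_of_ne (hem.ne h1) (hem.ne h2),
              Equiv.swap_apply_of_ne_of_ne h1 h2]
      have hlt : ∀ r, l (t r) = l r := by
        intro r
        simp only [t]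
        by_cases h1 : r = p
        · subst h1
          rw [Equiv.swap_apply_left, hpq]
        · by_cases h2 : r = q
          · subst h2
            rw [Equiv.swap_apply_right, hpq]
          · rw [Equiv.swap_apply_of_ne_of_ne h1 h2]
      set X : Equiv.Perm (Fin d × Fin 2) → ℂ := fun π => ((Equiv.Perm.sign π : ℤ) : ℂ) *
        ((∏ i ∈ Finset.univ \ J, a i (rb (π (i, 0))) (rb (π (i, 1)))) *
          ∏ q : J × Fin 2, l q (rb (π (q.1.1, q.2)))) with hX
      have hXs : ∀ π, X (π * s) = -X π := by
        intro π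
        simp only [hX]
        have e1 : ∏ i ∈ Finset.univ \ J, a i (rb ((π * s) (i, 0))) (rb ((π * s) (i, 1))) =
            ∏ i ∈ Finset.univ \ J, a i (rb (π (i, 0))) (rb (π (i, 1))) := by
          refine Finset.prod_congr rfl fun i hi => ?_
          have hiJ : i ∉ J := (Finset.mem_sdiff.1 hi).2
          have hse : ∀ e, s (i, e) = (i, e) := by
            intro e
            refine Equiv.swap_apply_of_ne_of_ne ?_ ?_
            · rintro h
              have := congrArg Prod.fst h
              simp only [em] at this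
              exact hiJ (this ▸ p.1.2)
            · rintro h
              have := congrArg Prod.fst h
              simp only [em] at this
              exact hiJ (this ▸ q.1.2)
          simp only [Equiv.Perm.mul_apply, hse]
        have e2 : ∏ q : J × Fin 2, l q (rb ((π * s) (q.1.1, q.2))) =
            ∏ q : J × Fin 2, l q (rb (π (q.1.1, q.2))) := by
          refine Fintype.prod_equiv t _ _ fun r => ?_
          have h1 := hst r
          simp only [em] at h1
          rw [Equiv.Perm.mul_apply, h1, hlt]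
        rw [e1, e2, Equiv.Perm.sign_mul, hs]
        push_cast
        ring
      have hsum : ∑ π, X π = -∑ π, X π := by
        rw [← Finset.sum_neg_distrib]
        refine (Fintype.sum_equiv (Equiv.mulRight s) _ _ fun π => rfl).symm.trans ?_
        exact Finset.sum_congr rfl fun π _ => hXs π
      exact self_eq_neg.1 hsum }

theorem VA_apply (J : Finset (Fin d)) (a : Fin d → L2 d) (l : J × Fin 2 → L1 d) :
    VA J a l = V J a (ext J l) := VM_apply J a l

/-- An alternating map of `ι` vectors which are linear combinations of `ι` vectors. -/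
theorem alt_det {ι V : Type} [Fintype ι] [DecidableEq ι] [AddCommGroup V] [Module ℂ V]
    (f : V [⋀^ι]→ₗ[ℂ] ℂ) (l l' : ι → V) (M : Matrix ι ι ℂ) (h : ∀ p, l' p = ∑ q, M p q • l q) :
    f l' = M.det * f l := by
  classical
  let L : (ι → ℂ) →ₗ[ℂ] V :=
    { toFun := fun c => ∑ q, c q • l q
      map_add' := fun c c' => by simp [add_smul, Finset.sum_add_distrib]
      map_smul' := fun c c' => by simp [Finset.smul_sum, mul_smul] }
  have e1 : l' = fun p => L (M p) := funext h
  have e2 : l = fun p => L (Pi.single p 1) := by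
    funext p
    show l p = ∑ q, (Pi.single p (1 : ℂ) : ι → ℂ) q • l q
    rw [Finset.sum_eq_single p]
    · simp
    · intro q _ hq
      simp [hq]
    · simp
  have e3 := AlternatingMap.eq_smul_basis_det (Pi.basisFun ℂ ι) (f.compLinearMap L)
  have e4 : f l' = (f.compLinearMap L) (fun p => M p) := by
    rw [e1]
    rfl
  have e5 : f l = (f.compLinearMap L) (Pi.basisFun ℂ ι) := by
    rw [e2]
    show _ = f fun p => L ((Pi.basisFun ℂ ι) p)
    simp
  have e6 : (f.compLinearMap L) (fun p => M p) =
      (f.compLinearMap L) (Pi.basisFun ℂ ι) * (Pi.basisFun ℂ ι).det (fun p => M p) :=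
    congrArg (fun g : (ι → ℂ) [⋀^ι]→ₗ[ℂ] ℂ => g (fun p => M p)) e3
  have e7 : (Pi.basisFun ℂ ι).det (fun p => M p) = M.det := Pi.basisFun_det_apply _
  rw [e4, e5, e6, e7, mul_comm]

/-- **A linear substitution of the 1-forms multiplies `W` by its determinant.** -/
theorem W_subst (J : Finset (Fin d)) (a a' : Fin d → L2 d) (l l' : J × Fin 2 → L1 d)
    (M : Matrix (J × Fin 2) (J × Fin 2) ℂ) (hl : ∀ p, l' p = ∑ q, M p q • l q)
    (h0 : ∀ i ∉ J, a' i = a i)
    (h : ∀ j (hj : j ∈ J) u v, a j u v =
      l (⟨j, hj⟩, 0) u * l (⟨j, hj⟩, 1) v - l (⟨j, hj⟩, 0) v * l (⟨j, hj⟩, 1) u)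
    (h' : ∀ j (hj : j ∈ J) u v, a' j u v =
      l' (⟨j, hj⟩, 0) u * l' (⟨j, hj⟩, 1) v - l' (⟨j, hj⟩, 0) v * l' (⟨j, hj⟩, 1) u) :
    W a' = M.det * W a := by
  classical
  rw [W_eq_V J a (ext J l) (fun j hj u v => by rw [ext_mem l hj, ext_mem l hj]; exact h j hj u v),
    W_eq_V J a' (ext J l')
      (fun j hj u v => by rw [ext_mem l' hj, ext_mem l' hj]; exact h' j hj u v)]
  have e : V J a' (ext J l') = V J a (ext J l') := by
    unfold V
    refine Finset.sum_congr rfl fun π _ => ?_
    congr 2
    refine Finset.prod_congr rfl fun i hi => ?_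
    rw [h0 i (Finset.mem_sdiff.1 hi).2]
  rw [e, ← VA_apply, ← VA_apply, alt_det (VA J a) l l' M hl]
  ring

end Vale.Agent.P281.H191.HKT
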