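import Vale.Agent.P281.H191.HKT.Ex
import Vale.Agent.P281.H191.HK.Int3
import Vale.Agent.P281.H83.HKT.Defs

/-!
# P281, project T-HKT (helper191): the forms `θ_j = (i/2) u_j ∧ conj u_j` are closed and real; the
integrals `bT`, `tT` depend on the classes only
-/

open Set Filter Metric MeasureTheory Vale.Agent.P272.K
open scoped Topology ContDiff ComplexConjugate ComplexOrder

noncomputable section

namespace Vale.Agent.P281.H191.HKT

open Vale.Agent.P281.H64.TK Vale.Agent.P281.H64.TK.TS Vale.Agent.P281.H747.TS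
open Vale.Agent.P281.H83.HK (W kf mkL)
open Vale.Agent.P281.H83.HKT
open Vale.Agent.P281.H864.HK (Wint W_eq W_perm W_add W_smul W_conj wint_class wint_cont wint_pull)
open Vale.Agent.P281.H191.HK (exact_self)

section alg
variable {a d : ℕ}

/-- The 1-form `∑ u_k dz_k` of the row `j`. -/
def row1 (u : Matrix (Fin a) (Fin d) ℂ) (j : Fin a) : L1 d :=
  LinearMap.toContinuousLinearMap
    { toFun := fun v : Cm d => ∑ k, u j k * v k
      map_add' := fun v w => by
        simp only [Pi.add_apply, mul_add, Finset.sum_add_distrib]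
      map_smul' := fun c v => by
        simp only [Pi.smul_apply, Complex.real_smul, RingHom.id_apply, Finset.mul_sum]
        exact Finset.sum_congr rfl fun k _ => by ring }

theorem row1_apply (u : Matrix (Fin a) (Fin d) ℂ) (j : Fin a) (v : Cm d) :
    row1 u j v = ∑ k, u j k * v k := rfl

theorem thj_apply (u : Matrix (Fin a) (Fin d) ℂ) (j : Fin a) (x y : Cm d) :
    thj u j x y = Complex.I / 2 * (row1 u j x * conj (row1 u j y) -
      row1 u j y * conj (row1 u j x)) := by
  show Complex.I / 2 * ∑ k, ∑ l, (u j k * conj (u j l)) * (x k * conj (y l) - y k * conj (x l)) = _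
  congr 1
  rw [row1_apply, row1_apply, map_sum, map_sum, Finset.sum_mul_sum, Finset.sum_mul_sum,
    ← Finset.sum_sub_distrib]
  refine Finset.sum_congr rfl fun k _ => ?_
  rw [← Finset.sum_sub_distrib]
  refine Finset.sum_congr rfl fun l _ => ?_
  rw [map_mul, map_mul]
  ring

theorem thj_eq (u : Matrix (Fin a) (Fin d) ℂ) (j : Fin a) :
    thj u j = (Complex.I / 2) • w2 (row1 u j) (cj1 d (row1 u j)) := by
  refine l2_ext fun x y => ?_
  rw [thj_apply]
  show _ = Complex.I / 2 * (row1 u j x * conj (row1 u j y) - row1 u j y * conj (row1 u j x))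
  rfl

theorem thj_real (u : Matrix (Fin a) (Fin d) ℂ) (j : Fin a) (x y : Cm d) :
    (thj u j x y).im = 0 := by
  rw [← Complex.conj_eq_iff_im, thj_apply]
  simp only [map_mul, map_sub, map_div₀, Complex.conj_I, Complex.conj_conj]
  have h2 : conj (2 : ℂ) = 2 := map_ofNat (starRingEnd ℂ) 2
  rw [h2]
  ring

end alg

section
variable {a d : ℕ} {E Γ : Type} [TopologicalSpace E] [Group Γ] [MulAction Γ E] {S : Sheets d E Γ}

theorem cl1_row {u : Fin S.N → Cm d → Matrix (Fin a) (Fin d) ℂ} (hu : Hol1 S u) (j : Fin a) :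
    Cl1 S (fun i z => row1 (u i z) j) := by
  have hs : ∀ i, ContDiffOn ℝ ∞ (fun z => row1 (u i z) j) (ball 0 3) := by
    intro i
    rw [contDiffOn_clm_apply]
    intro v
    have : (fun z => row1 (u i z) j v) = fun z => ∑ k, u i z j k * v k := rfl
    rw [this]
    refine ContDiffOn.sum fun k _ => ?_
    exact (H702.TS.hol_smooth (hu.hol i j k)).mul contDiffOn_const
  refine ⟨⟨fun i z hz _ => (hs i).contDiffAt (isOpen_ball.mem_nhds hz), ?_⟩, ?_⟩
  · intro i j' z hz z' hz' _ ψ hψ v
    show ∑ k, u i z j k * v k = ∑ l, u j' z' j l * fderiv ℝ ψ z v l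
    obtain ⟨-, h1, h2, h3, -⟩ := H702.TS.Tr_eq S hz hz' hψ
    have h4 := hu.change i j' z hz z' hz' _ h2 h1 h3
    rw [h4]
    have h5 : ∀ l, fderiv ℝ ψ z v l = ∑ k, jac (H702.TS.tr S i j') z l k * v k :=
      fun l => H702.TS.Tr_fderiv S hz hz' hψ v l
    simp only [h5, Matrix.mul_apply, Finset.sum_mul, Finset.mul_sum]
    rw [Finset.sum_comm]
    exact Finset.sum_congr rfl fun l _ => Finset.sum_congr rfl fun k _ => by ring
  · intro i z hz v w
    have hd : DifferentiableAt ℝ (fun z => row1 (u i z) j) z :=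
      ((hs i).contDiffAt (isOpen_ball.mem_nhds hz)).differentiableAt (by simp)
    have hc : ∀ k, DifferentiableAt ℂ (fun z => u i z j k) z := fun k =>
      (hu.hol i j k).differentiableAt (isOpen_ball.mem_nhds hz)
    have h1 : ∀ v w, fderiv ℝ (fun z => row1 (u i z) j) z v w =
        ∑ k, ∑ l, dd l (fun z => u i z j k) z * (v l * w k) := by
      intro v w
      have h2 : fderiv ℝ (fun z => row1 (u i z) j) z v w =
          fderiv ℝ (fun z => row1 (u i z) j w) z v := by
        rw [(fd1 hd w).fderiv]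
        rfl
      rw [h2]
      have h3 : HasFDerivAt (fun z => row1 (u i z) j w)
          (∑ k, (w k) • fderiv ℝ (fun z => u i z j k) z) z := by
        have h4 : (fun z => row1 (u i z) j w) = fun z => ∑ k, u i z j k * w k := rfl
        rw [h4]
        exact HasFDerivAt.fun_sum fun k _ =>
          ((hc k).hasFDerivAt.restrictScalars ℝ).differentiableAt.hasFDerivAt.mul_const _
      rw [h3.fderiv]
      simp only [sum_apply, smul_apply, smul_eq_mul]
      refine Finset.sum_congr rfl fun k _ => ?_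
      have h5 : fderiv ℝ (fun z => u i z j k) z v = ∑ l, dd l (fun z => u i z j k) z * v l := by
        rw [((hc k).hasFDerivAt.restrictScalars ℝ).fderiv]
        show fderiv ℂ (fun z => u i z j k) z v = _
        conv_lhs => rw [pi_eq_sum_univ' v]
        rw [map_sum]
        refine Finset.sum_congr rfl fun l _ => ?_
        rw [map_smul, smul_eq_mul, mul_comm]
        rfl
      rw [h5, Finset.mul_sum]
      exact Finset.sum_congr rfl fun l _ => by ring
    rw [h1, h1, Finset.sum_comm]
    refine Finset.sum_congr rfl fun l _ => Finset.sum_congr rfl fun k _ => ?_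
    rw [hu.closed i z hz j l k]
    ring

theorem cl1_conj {β : Fin S.N → Cm d → L1 d} (h : Cl1 S β) : Cl1 S (fun i z => cj1 d (β i z)) := by
  refine ⟨⟨fun i z hz hV => sm_comp (cj1 d) (h.smooth i z hz hV),
    fun i j z hz z' hz' hV ψ hψ v => ?_⟩, fun i z hz u v => ?_⟩
  · show conj (β i z v) = conj (β j z' (fderiv ℝ ψ z v))
    rw [h.change i j z hz z' hz' hV ψ hψ v]
  · have h1 : DifferentiableAt ℝ (β i) z := (h.smooth i z hz (mem_univ _)).differentiableAt
      (by simp)
    rw [fd_comp (cj1 d) h1]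
    show conj (fderiv ℝ (β i) z u v) = conj (fderiv ℝ (β i) z v u)
    rw [h.closed i z hz u v]

/-- The forms `θ_j` are closed. -/
theorem cl2_thj {u : Fin S.N → Cm d → Matrix (Fin a) (Fin d) ℂ} (hu : Hol1 S u) (j : Fin a) :
    Cl2 S (fun i z => thj (u i z) j) :=
  cl2_congr (cl2_smul (cl2_ww (cl1_row hu j) (cl1_conj (cl1_row hu j))) (Complex.I / 2))
    fun i z _ => (thj_eq (u i z) j).symm

theorem real_thj (u : Fin S.N → Cm d → Matrix (Fin a) (Fin d) ℂ) (j : Fin a) :
    Real2 S (fun i z => thj (u i z) j) := fun i z _ x y => thj_real (u i z) j x y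

/-! ### The lists -/

/-- The list of `tT`. -/
def tl (u : Fin S.N → Cm d → Matrix (Fin a) (Fin d) ℂ) (x : Fin d → Fin S.N → Cm d → L2 d)
    (l : Fin d) : Fin S.N → Cm d → L2 d :=
  if h : l.val < a then fun i z => thj (u i z) ⟨l.val, h⟩ else x l

/-- The list of `bT`. -/
def bl (u : Fin S.N → Cm d → Matrix (Fin a) (Fin d) ℂ) (x y c : Fin S.N → Cm d → L2 d)
    (l : Fin d) : Fin S.N → Cm d → L2 d :=
  if l.val = 0 then x else if l.val = 1 then y else
    if h : l.val - 2 < a then fun i z => thj (u i z) ⟨l.val - 2, h⟩ else c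

theorem tT_eq (u : Fin S.N → Cm d → Matrix (Fin a) (Fin d) ℂ)
    (x : Fin d → Fin S.N → Cm d → L2 d) : tT S u x = Wint S (tl u x) := by
  unfold tT Wint
  congr 1
  funext i z
  rw [W_eq]
  congr 1
  funext l
  unfold thl tl
  split_ifs <;> rfl

theorem bT_eq (u : Fin S.N → Cm d → Matrix (Fin a) (Fin d) ℂ) (x y c : Fin S.N → Cm d → L2 d) :
    bT S u x y c = Wint S (bl u x y c) := by
  unfold bT Wint W4
  congr 1
  funext i z
  rw [W_eq]
  congr 1
  funext l
  unfold lst bl
  split_ifs <;> rfl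

theorem tl_cl {u : Fin S.N → Cm d → Matrix (Fin a) (Fin d) ℂ} (hu : Hol1 S u)
    {x : Fin d → Fin S.N → Cm d → L2 d} (hx : ∀ l, a ≤ l.val → Cl2 S (x l)) (l : Fin d) :
    Cl2 S (tl u x l) := by
  unfold tl
  split_ifs with h
  · exact cl2_thj hu _
  · exact hx l (not_lt.1 h)

theorem bl_cl {u : Fin S.N → Cm d → Matrix (Fin a) (Fin d) ℂ} (hu : Hol1 S u)
    {x y c : Fin S.N → Cm d → L2 d} (hx : Cl2 S x) (hy : Cl2 S y) (hc : Cl2 S c) (l : Fin d) :
    Cl2 S (bl u x y c l) := by
  unfold bl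
  split_ifs
  · exact hx
  · exact hy
  · exact cl2_thj hu _
  · exact hc

/-- The list of `tT` which gives `bT`. -/
def xyc (a : ℕ) (x y c : Fin S.N → Cm d → L2 d) (l : Fin d) : Fin S.N → Cm d → L2 d :=
  if l.val = a then x else if l.val = a + 1 then y else c

theorem xyc_prop {P : (Fin S.N → Cm d → L2 d) → Prop} {x y c : Fin S.N → Cm d → L2 d} (hx : P x)
    (hy : P y) (hc : P c) (l : Fin d) : P (xyc a x y c l) := by
  unfold xyc
  split_ifs <;> assumption

theorem rot_lt (hd : a + 2 ≤ d) (l : Fin d) : (if l.val < a then l.val + 2 else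
    if l.val = a then 0 else if l.val = a + 1 then 1 else l.val) < d := by
  have := l.2
  split_ifs <;> omega

theorem rot_lt' (hd : a + 2 ≤ d) (l : Fin d) : (if l.val = 0 then a else if l.val = 1 then a + 1 else
    if l.val - 2 < a then l.val - 2 else l.val) < d := by
  have := l.2
  split_ifs <;> omega

/-- The permutation `θ_1, ..., θ_a, x, y, c, ... ↦ x, y, θ_1, ..., θ_a, c, ...`. -/
def rot (hd : a + 2 ≤ d) : Equiv.Perm (Fin d) where
  toFun l := ⟨_, rot_lt hd l⟩
  invFun l := ⟨_, rot_lt' hd l⟩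
  left_inv l := by
    apply Fin.ext
    have := l.2
    by_cases h0 : l.val < a
    · have h3 : ¬ l.val + 2 = 0 := by omega
      have h4 : ¬ l.val + 2 = 1 := by omega
      have h5 : l.val + 2 - 2 < a := by omega
      simp only [h0, h3, h4, h5, if_true, if_false]
      omega
    · by_cases h1 : l.val = a
      · simp [h1]
      · by_cases h2 : l.val = a + 1
        · simp [h2]
        · have h3 : ¬ l.val = 0 := by omega
          have h4 : ¬ l.val = 1 := by omega
          have h5 : ¬ l.val - 2 < a := by omega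
          simp only [h0, h1, h2, h3, h4, h5, if_false]
  right_inv l := by
    apply Fin.ext
    have := l.2
    by_cases h0 : l.val = 0
    · simp [h0]
    · by_cases h1 : l.val = 1
      · simp [h1]
      · by_cases h2 : l.val - 2 < a
        · simp only [h0, h1, h2, if_true, if_false]
          omega
        · have h3 : ¬ l.val < a := by omega
          have h4 : ¬ l.val = a := by omega
          have h5 : ¬ l.val = a + 1 := by omega
          simp only [h0, h1, h2, h3, h4, h5, if_false]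

theorem bT_eq_tT (hd : a + 2 ≤ d) (u : Fin S.N → Cm d → Matrix (Fin a) (Fin d) ℂ)
    (x y c : Fin S.N → Cm d → L2 d) : bT S u x y c = tT S u (xyc a x y c) := by
  rw [bT_eq, tT_eq]
  unfold Wint
  congr 1
  funext i z
  rw [← W_perm (fun l => bl u x y c l i z) (rot hd)]
  congr 1
  funext l
  unfold bl tl xyc rot
  simp only [Equiv.coe_fn_mk]
  have hl := l.2
  by_cases h1 : l.val < a
  · simp [h1]
  · by_cases h2 : l.val = a
    · simp [h2]
    · by_cases h3 : l.val = a + 1
      · simp [h3]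
      · have h4 : ¬ l.val - 2 < a := by omega
        have h5 : ¬ l.val = 0 := by omega
        have h6 : ¬ l.val = 1 := by omega
        simp [h1, h2, h3, h4, h5, h6]

variable [ContinuousConstSMul Γ E] [Subsingleton Γ]

theorem tT_class {u : Fin S.N → Cm d → Matrix (Fin a) (Fin d) ℂ} (hu : Hol1 S u)
    {x x' : Fin d → Fin S.N → Cm d → L2 d} (hx : ∀ l, Cl2 S (x l)) (hx' : ∀ l, Cl2 S (x' l))
    (he : ∀ l, Exact S (fun i z => x l i z - x' l i z)) : tT S u x = tT S u x' := by
  rw [tT_eq, tT_eq]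
  refine wint_class (tl_cl hu fun l _ => hx l) (tl_cl hu fun l _ => hx' l) fun l => ?_
  unfold tl
  split_ifs
  · exact exact_self _
  · exact he l

/-- `bT` depends on the classes only. -/
theorem bT_class {u : Fin S.N → Cm d → Matrix (Fin a) (Fin d) ℂ} (hu : Hol1 S u)
    {x y c x' y' c' : Fin S.N → Cm d → L2 d} (hx : Cl2 S x) (hy : Cl2 S y)
    (hc : Cl2 S c) (hx' : Cl2 S x') (hy' : Cl2 S y') (hc' : Cl2 S c')
    (ex : Exact S (fun i z => x i z - x' i z)) (ey : Exact S (fun i z => y i z - y' i z))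
    (ec : Exact S (fun i z => c i z - c' i z)) : bT S u x y c = bT S u x' y' c' := by
  rw [bT_eq, bT_eq]
  refine wint_class (bl_cl hu hx hy hc) (bl_cl hu hx' hy' hc') fun l => ?_
  unfold bl
  split_ifs
  · exact ex
  · exact ey
  · exact exact_self _
  · exact ec

omit [ContinuousConstSMul Γ E] [Subsingleton Γ] in
theorem bT_comm (hd : 1 < d) (u : Fin S.N → Cm d → Matrix (Fin a) (Fin d) ℂ)
    (x y c : Fin S.N → Cm d → L2 d) : bT S u x y c = bT S u y x c := by
  rw [bT_eq, bT_eq]
  unfold Wint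
  congr 1
  funext i z
  rw [← W_perm (fun l => bl u x y c l i z) (Equiv.swap ⟨0, by omega⟩ ⟨1, hd⟩)]
  congr 1
  funext l
  by_cases h0 : l = ⟨0, by omega⟩
  · subst h0
    rw [Equiv.swap_apply_left]
    simp [bl]
  · by_cases h1 : l = ⟨1, hd⟩
    · subst h1
      rw [Equiv.swap_apply_right]
      simp [bl]
    · rw [Equiv.swap_apply_of_ne_of_ne h0 h1]
      have e0 : l.val ≠ 0 := fun e => h0 (Fin.ext e)
      have e1 : l.val ≠ 1 := fun e => h1 (Fin.ext e)
      simp [bl, e0, e1]

omit [ContinuousConstSMul Γ E] [Subsingleton Γ] in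
theorem lst_upd (hd : 0 < d) (u : Matrix (Fin a) (Fin d) ℂ) (x y c : L2 d) :
    lst u x y c = Function.update (lst u 0 y c) ⟨0, hd⟩ x := by
  funext i
  by_cases h0 : i = ⟨0, hd⟩
  · subst h0
    rw [Function.update_self]
    simp [lst]
  · rw [Function.update_of_ne h0]
    have e0 : i.val ≠ 0 := fun e => h0 (Fin.ext e)
    simp [lst, e0]

omit [ContinuousConstSMul Γ E] [Subsingleton Γ] in
theorem W4_add_left (hd : 0 < d) (u : Matrix (Fin a) (Fin d) ℂ) (x x' y c : L2 d) :
    W4 u (x + x') y c = W4 u x y c + W4 u x' y c := by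
  rw [W4, W4, W4, W_eq, W_eq, W_eq, lst_upd hd u (x + x') y c, lst_upd hd u x y c,
    lst_upd hd u x' y c, W_add]

omit [ContinuousConstSMul Γ E] [Subsingleton Γ] in
theorem W4_smul_left (hd : 0 < d) (u : Matrix (Fin a) (Fin d) ℂ) (t : ℂ) (x y c : L2 d) :
    W4 u (t • x) y c = t * W4 u x y c := by
  rw [W4, W4, W_eq, W_eq, lst_upd hd u (t • x) y c, lst_upd hd u x y c, W_smul]

theorem contT {u : Fin S.N → Cm d → Matrix (Fin a) (Fin d) ℂ} (hu : Hol1 S u)
    {x y c : Fin S.N → Cm d → L2 d} (hx : Cl2 S x) (hy : Cl2 S y) (hc : Cl2 S c) (i : Fin S.N) :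
    ContinuousOn (fun z => W4 (u i z) (x i z) (y i z) (c i z)) (ball 0 3) := by
  refine (wint_cont (bl_cl hu hx hy hc) i).congr fun z _ => ?_
  show W4 (u i z) (x i z) (y i z) (c i z) =
    Vale.Agent.P281.H864.HK.W fun k => bl u x y c k i z
  rw [W4, W_eq]
  congr 1
  funext l
  unfold lst bl
  split_ifs <;> rfl

theorem bT_add_smul (hd : 0 < d) {u : Fin S.N → Cm d → Matrix (Fin a) (Fin d) ℂ} (hu : Hol1 S u)
    {x x' y c : Fin S.N → Cm d → L2 d} (hx : Cl2 S x)
    (hx' : Cl2 S x') (hy : Cl2 S y) (hc : Cl2 S c) (t : ℂ) :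
    bT S u (fun i z => x i z + t • x' i z) y c = bT S u x y c + t * bT S u x' y c := by
  unfold bT Sheets.int
  rw [Finset.mul_sum, ← Finset.sum_add_distrib]
  refine Finset.sum_congr rfl fun i _ => ?_
  have h1 : IntegrableOn (fun z => W4 (u i z) (x i z) (y i z) (c i z)) (S.P i) :=
    H840.TS.integ S i (contT hu hx hy hc i) (H840.TS.P_sub S i)
  have h2 : IntegrableOn (fun z => W4 (u i z) (x' i z) (y i z) (c i z)) (S.P i) :=
    H840.TS.integ S i (contT hu hx' hy hc i) (H840.TS.P_sub S i)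
  rw [← integral_const_mul, ← integral_add h1 (h2.const_mul t)]
  refine integral_congr_ae (Filter.Eventually.of_forall fun z => ?_)
  show W4 (u i z) (x i z + t • x' i z) (y i z) (c i z) = _
  rw [W4_add_left hd, W4_smul_left hd]

omit [ContinuousConstSMul Γ E] [Subsingleton Γ] in
theorem bT_zero (hd : 0 < d) (u : Fin S.N → Cm d → Matrix (Fin a) (Fin d) ℂ)
    (y c : Fin S.N → Cm d → L2 d) : bT S u (fun _ _ => 0) y c = 0 := by
  have h : ∀ (u : Matrix (Fin a) (Fin d) ℂ) (y c : L2 d), W4 u 0 y c = 0 := fun u y c => by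
    have e : (0 : ℂ) • (0 : L2 d) = 0 := l2_ext fun u v => by
      show (0 : ℂ) * 0 = 0
      ring
    have h1 := W4_smul_left hd u 0 0 y c
    rw [e, zero_mul] at h1
    exact h1
  unfold bT Sheets.int
  simp [h]

theorem bT_sum (hd : 0 < d) {u : Fin S.N → Cm d → Matrix (Fin a) (Fin d) ℂ} (hu : Hol1 S u)
    {ι : Type} (s : Finset ι) {x : ι → Fin S.N → Cm d → L2 d}
    {y c : Fin S.N → Cm d → L2 d} (t : ι → ℂ) (h : ∀ k ∈ s, Cl2 S (x k)) (hy : Cl2 S y)
    (hc : Cl2 S c) :
    bT S u (fun i z => ∑ k ∈ s, t k • x k i z) y c = ∑ k ∈ s, t k * bT S u (x k) y c := by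
  classical
  induction s using Finset.induction_on with
  | empty =>
    simp only [Finset.sum_empty]
    exact bT_zero hd u y c
  | insert j s hj ih =>
    rw [Finset.sum_insert hj, ← ih fun k hk => h k (Finset.mem_insert_of_mem hk),
      add_comm (t j * bT S u (x j) y c),
      ← bT_add_smul hd hu (cl2_sum s t fun k hk => h k (Finset.mem_insert_of_mem hk))
        (h j (Finset.mem_insert_self j s)) hy hc (t j)]
    congr 1
    funext i z
    refine l2_ext fun u v => ?_
    show (∑ k ∈ insert j s, t k • x k i z) u v =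
      (∑ k ∈ s, t k • x k i z) u v + t j * x j i z u v
    rw [sum_ap, sum_ap, Finset.sum_insert hj, add_comm]
    rfl

omit [ContinuousConstSMul Γ E] in
theorem bT_conj {u : Fin S.N → Cm d → Matrix (Fin a) (Fin d) ℂ} {x y c : Fin S.N → Cm d → L2 d}
    (hx : Real2 S x) (hy : Real2 S y) (hc : Real2 S c) :
    conj (bT S u x y c) = bT S u x y c := by
  unfold bT Sheets.int
  rw [map_sum]
  refine Finset.sum_congr rfl fun i _ => ?_
  rw [← integral_conj]
  refine setIntegral_congr_fun (H840.TS.meas_P S i) fun z hz => ?_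
  have hz3 : z ∈ ball (0 : Cm d) 3 := by
    have : ‖z‖ < 1 := hz.1
    simp only [mem_ball, dist_zero_right]
    linarith
  show conj (W4 (u i z) (x i z) (y i z) (c i z)) = W4 (u i z) (x i z) (y i z) (c i z)
  rw [W4, W_eq]
  refine (W_conj fun l p q => ?_).symm
  refine (Complex.conj_eq_iff_im.2 ?_).symm
  unfold lst
  split_ifs
  · exact hx i z hz3 p q
  · exact hy i z hz3 p q
  · exact thj_real _ _ _ _
  · exact hc i z hz3 p q

omit [ContinuousConstSMul Γ E] in
theorem bT_re {u : Fin S.N → Cm d → Matrix (Fin a) (Fin d) ℂ} {x y c : Fin S.N → Cm d → L2 d}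
    (hx : Real2 S x) (hy : Real2 S y) (hc : Real2 S c) :
    ((bT S u x y c).re : ℂ) = bT S u x y c :=
  Complex.conj_eq_iff_re.1 (bT_conj hx hy hc)

/-- `bT` in the coordinates of a marking. -/
theorem bT_cl (hd : 1 < d) {u : Fin S.N → Cm d → Matrix (Fin a) (Fin d) ℂ} (hu : Hol1 S u) {n : ℕ}
    (M : Mark2 S n) {c : Fin S.N → Cm d → L2 d} (hc : Cl2 S c)
    (hcr : Real2 S c) {α β : Fin S.N → Cm d → L2 d} (hα : Cl2 S α) (hβ : Cl2 S β) :
    bT S u α β c = ∑ k, ∑ l, M.cl α k * M.cl β l * ((bT S u (M.b k) (M.b l) c).re : ℂ) := by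
  have hd0 : 0 < d := by omega
  have key : ∀ {α β : Fin S.N → Cm d → L2 d}, Cl2 S α → Cl2 S β →
      bT S u α β c = ∑ k, M.cl α k * bT S u (M.b k) β c := by
    intro α β hα hβ
    rw [← bT_sum hd0 hu Finset.univ (M.cl α) (fun k _ => M.closed k) hβ hc]
    exact bT_class hu hα hβ hc (cl2_sum Finset.univ (M.cl α) fun k _ => M.closed k) hβ hc
      (M.ex α hα) (exact_self β) (exact_self c)
  rw [key hα hβ]
  refine Finset.sum_congr rfl fun k _ => ?_
  rw [bT_comm hd, key hβ (M.closed k), Finset.mul_sum]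
  refine Finset.sum_congr rfl fun l _ => ?_
  rw [bT_comm hd u (M.b l), bT_re (M.real k) (M.real l) hcr]
  ring

end

end Vale.Agent.P281.H191.HKT
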