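import Vale.Agent.P281.H83.HK.Defs

/-!
# P281, project T-HKT (helper191): arithmetic of degenerate forms with a rational radical
-/

open Set Filter
open scoped Matrix

noncomputable section

namespace Vale.Agent.P281.H191.HKT

/-- The real matrix of an integer matrix. -/
abbrev rm {m n : ℕ} (J : Matrix (Fin m) (Fin n) ℤ) : Matrix (Fin m) (Fin n) ℝ :=
  J.map (Int.cast : ℤ → ℝ)

theorem rm_mul {m n k : ℕ} (J : Matrix (Fin m) (Fin n) ℤ) (K : Matrix (Fin n) (Fin k) ℤ) :
    rm (J * K) = rm J * rm K := by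
  exact Matrix.map_mul (f := Int.castRingHom ℝ)

theorem rm_one {m : ℕ} : rm (1 : Matrix (Fin m) (Fin m) ℤ) = 1 := by
  exact Matrix.map_one _ (by simp) (by simp)

/-- An integer matrix which is injective on integer vectors is injective on real vectors. -/
theorem inj_real {m n : ℕ} (K : Matrix (Fin m) (Fin n) ℤ)
    (h : ∀ x : Fin n → ℤ, K.mulVec x = 0 → x = 0) (x : Fin n → ℝ) (hx : (rm K).mulVec x = 0) :
    x = 0 := by
  have hG : (Kᵀ * K).det ≠ 0 := by
    intro h0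
    obtain ⟨v, hv, hv0⟩ := Matrix.exists_mulVec_eq_zero_iff.2 h0
    refine hv (h v ?_)
    have h1 : v ⬝ᵥ ((Kᵀ * K).mulVec v) = 0 := by rw [hv0]; simp
    rw [← Matrix.mulVec_mulVec, Matrix.dotProduct_mulVec, Matrix.vecMul_transpose] at h1
    exact dotProduct_self_eq_zero.1 h1
  have hG' : (rm (Kᵀ * K)).det ≠ 0 := by
    have : (rm (Kᵀ * K)).det = (((Kᵀ * K).det : ℤ) : ℝ) := by
      exact (RingHom.map_det (Int.castRingHom ℝ) (Kᵀ * K)).symm
    rw [this]
    exact_mod_cast hG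
  by_contra hne
  refine hG' (Matrix.exists_mulVec_eq_zero_iff.1 ⟨x, hne, ?_⟩)
  have h2 : rm (Kᵀ * K) = rm Kᵀ * rm K := rm_mul _ _
  rw [h2, ← Matrix.mulVec_mulVec, hx, Matrix.mulVec_zero]

/-- Every integer matrix is a product `K J`, `K` injective, `J` with an integer right inverse. -/
theorem factor {m n : ℕ} (J₀ : Matrix (Fin m) (Fin n) ℤ) :
    ∃ (r : ℕ) (K : Matrix (Fin m) (Fin r) ℤ) (J : Matrix (Fin r) (Fin n) ℤ)
      (J' : Matrix (Fin n) (Fin r) ℤ), J₀ = K * J ∧ J * J' = 1 ∧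
        ∀ x : Fin r → ℤ, K.mulVec x = 0 → x = 0 := by
  classical
  let f : (Fin n → ℤ) →ₗ[ℤ] (Fin m → ℤ) := Matrix.mulVecLin J₀
  obtain ⟨r, ⟨b⟩⟩ := Submodule.nonempty_basis_of_pid (Pi.basisFun ℤ (Fin m)) (LinearMap.range f)
  -- the coordinates
  let g : (Fin n → ℤ) →ₗ[ℤ] (Fin r → ℤ) := (b.equivFun : _ →ₗ[ℤ] (Fin r → ℤ)) ∘ₗ f.rangeRestrict
  let k : (Fin r → ℤ) →ₗ[ℤ] (Fin m → ℤ) :=
    (LinearMap.range f).subtype ∘ₗ (b.equivFun.symm : (Fin r → ℤ) →ₗ[ℤ] _)
  have hkg : ∀ x, k (g x) = f x := by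
    intro x
    show ((b.equivFun.symm (b.equivFun (f.rangeRestrict x)) : LinearMap.range f) : Fin m → ℤ) = f x
    rw [LinearEquiv.symm_apply_apply]
    rfl
  have hk : ∀ x, k x = 0 → x = 0 := by
    intro x hx
    have h1 : (b.equivFun.symm x : LinearMap.range f) = 0 := Subtype.ext hx
    have h2 := congrArg b.equivFun h1
    rwa [LinearEquiv.apply_symm_apply, map_zero] at h2
  have hg : Function.Surjective g := by
    intro y
    obtain ⟨x, hx⟩ := f.surjective_rangeRestrict (b.equivFun.symm y)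
    refine ⟨x, ?_⟩
    show b.equivFun (f.rangeRestrict x) = y
    rw [hx, LinearEquiv.apply_symm_apply]
  choose s hs using fun j : Fin r => hg (Pi.single j 1)
  refine ⟨r, LinearMap.toMatrix' k, LinearMap.toMatrix' g, Matrix.of fun i j => s j i, ?_, ?_, ?_⟩
  · rw [← LinearMap.toMatrix'_comp]
    have : k ∘ₗ g = Matrix.toLin' J₀ := LinearMap.ext hkg
    rw [this, LinearMap.toMatrix'_toLin']
  · ext i j
    have h1 : (LinearMap.toMatrix' g * Matrix.of fun i j => s j i) i j =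
        ((LinearMap.toMatrix' g).mulVec (s j)) i := rfl
    rw [h1, LinearMap.toMatrix'_mulVec, hs j]
    simp [Matrix.one_apply, Pi.single_apply]
  · intro x hx
    rw [LinearMap.toMatrix'_mulVec] at hx
    exact hk x hx

/-- **A real form with a rational radical comes from a nondegenerate form.** -/
theorem arith_core {n m₀ : ℕ} (q : Matrix (Fin n) (Fin n) ℝ) (hq : ∀ k l, q k l = q l k)
    (J₀ : Matrix (Fin m₀) (Fin n) ℤ)
    (h : ∀ x : Fin n → ℝ, (∀ l, ∑ k, x k * q k l = 0) ↔ (rm J₀).mulVec x = 0) :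
    ∃ (m : ℕ) (B : Matrix (Fin m) (Fin m) ℝ) (J : Matrix (Fin m) (Fin n) ℤ)
      (J' : Matrix (Fin n) (Fin m) ℤ), J * J' = 1 ∧ IsUnit B.det ∧ B.transpose = B ∧
        q = (rm J).transpose * B * rm J := by
  classical
  obtain ⟨m, K, J, J', e1, e2, hK⟩ := factor J₀
  have hqT : qᵀ = q := by
    ext k l
    exact hq l k
  have hrad : ∀ x : Fin n → ℝ, q.mulVec x = 0 ↔ (rm J).mulVec x = 0 := by
    intro x
    have h1 : q.mulVec x = 0 ↔ ∀ l, ∑ k, x k * q k l = 0 := by
      constructor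
      · intro h l
        have h2 : ∑ k, q l k * x k = 0 := congrFun h l
        rw [← h2]
        exact Finset.sum_congr rfl fun k _ => by rw [hq l k, mul_comm]
      · intro h
        funext l
        show ∑ k, q l k * x k = (0 : ℝ)
        rw [← h l]
        exact Finset.sum_congr rfl fun k _ => by rw [hq l k, mul_comm]
    rw [h1, h x, e1, rm_mul, ← Matrix.mulVec_mulVec]
    constructor
    · intro h2
      exact inj_real K hK _ h2
    · intro h2
      rw [h2, Matrix.mulVec_zero]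
  have e3 : rm J * rm J' = 1 := by rw [← rm_mul, e2, rm_one]
  -- `x - J' J x` is in the radical
  have h4 : q * (rm J' * rm J) = q := by
    have h5 : q * (1 - rm J' * rm J) = 0 := by
      ext k l
      have h6 : (rm J).mulVec ((1 - rm J' * rm J).col l) = 0 := by
        have h7 : rm J * (1 - rm J' * rm J) = 0 := by
          rw [Matrix.mul_sub, Matrix.mul_one, ← Matrix.mul_assoc, e3, Matrix.one_mul, sub_self]
        funext i
        have := congrFun (congrFun h7 i) l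
        exact this
      have h8 := (hrad _).2 h6
      exact congrFun h8 k
    rw [Matrix.mul_sub, Matrix.mul_one] at h5
    exact (sub_eq_zero.1 h5).symm
  have h5 : (rm J' * rm J)ᵀ * q = q := by
    have := congrArg Matrix.transpose h4
    rwa [Matrix.transpose_mul, hqT] at this
  refine ⟨m, (rm J')ᵀ * q * rm J', J, J', e2, ?_, ?_, ?_⟩
  · rw [isUnit_iff_ne_zero]
    intro h0
    obtain ⟨y, hy, hy0⟩ := Matrix.exists_mulVec_eq_zero_iff.2 h0
    refine hy ?_
    have h6 : q.mulVec ((rm J').mulVec y) = 0 := by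
      have h7 : (rm J)ᵀ.mulVec (((rm J')ᵀ * q * rm J').mulVec y) = 0 := by
        rw [hy0, Matrix.mulVec_zero]
      have h8 : (rm J)ᵀ * ((rm J')ᵀ * q * rm J') = q * rm J' := by
        rw [Matrix.mul_assoc, ← Matrix.mul_assoc (rm J)ᵀ, ← Matrix.transpose_mul,
          ← Matrix.mul_assoc, h5]
      rw [Matrix.mulVec_mulVec, h8, ← Matrix.mulVec_mulVec] at h7
      exact h7
    have h9 := (hrad _).1 h6
    rwa [Matrix.mulVec_mulVec, e3, Matrix.one_mulVec] at h9
  · rw [Matrix.transpose_mul, Matrix.transpose_mul, Matrix.transpose_transpose, hqT,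
      Matrix.mul_assoc]
  · have : (rm J)ᵀ * ((rm J')ᵀ * q * rm J') * rm J = (rm J' * rm J)ᵀ * q * (rm J' * rm J) := by
      rw [Matrix.transpose_mul]
      simp only [Matrix.mul_assoc]
    rw [this, h5, h4]

/-- **Two reductions of the same form to nondegenerate forms.** -/
theorem two_core {n n' m m' : ℕ} (q : Matrix (Fin n) (Fin n) ℝ) (q' : Matrix (Fin n') (Fin n') ℝ)
    (A₀ : Matrix (Fin n') (Fin n) ℤ) (A₁ : Matrix (Fin n) (Fin n') ℤ) (h01 : A₀ * A₁ = 1)
    (h10 : A₁ * A₀ = 1) (hq : (rm A₀)ᵀ * q' * rm A₀ = q)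
    (B : Matrix (Fin m) (Fin m) ℝ) (J : Matrix (Fin m) (Fin n) ℤ) (J' : Matrix (Fin n) (Fin m) ℤ)
    (hJ : J * J' = 1) (hB : IsUnit B.det) (e : q = (rm J)ᵀ * B * rm J)
    (B' : Matrix (Fin m') (Fin m') ℝ) (K : Matrix (Fin m') (Fin n') ℤ)
    (K' : Matrix (Fin n') (Fin m') ℤ)
    (hK : K * K' = 1) (hB' : IsUnit B'.det) (e' : q' = (rm K)ᵀ * B' * rm K) :
    ∃ (A : Matrix (Fin m') (Fin m) ℤ) (A' : Matrix (Fin m) (Fin m') ℤ), A * A' = 1 ∧ A' * A = 1 ∧
      A * J = K * A₀ ∧ (rm A)ᵀ * B' * rm A = B := by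
  classical
  have hJr : rm J * rm J' = 1 := by rw [← rm_mul, hJ, rm_one]
  have hKr : rm K * rm K' = 1 := by rw [← rm_mul, hK, rm_one]
  have h01r : rm A₀ * rm A₁ = 1 := by rw [← rm_mul, h01, rm_one]
  -- kernels
  have inj : ∀ {a b : ℕ} (B : Matrix (Fin b) (Fin b) ℝ) (J : Matrix (Fin b) (Fin a) ℤ)
      (J' : Matrix (Fin a) (Fin b) ℤ), J * J' = 1 → IsUnit B.det → ∀ {c : ℕ}
      (X : Matrix (Fin a) (Fin c) ℝ), ((rm J)ᵀ * B * rm J) * X = 0 → rm J * X = 0 := by
    intro a b B J J' h hB c X hX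
    have h1 : rm J * rm J' = 1 := by rw [← rm_mul, h, rm_one]
    have h2 : (rm J')ᵀ * (rm J)ᵀ = 1 := by rw [← Matrix.transpose_mul, h1, Matrix.transpose_one]
    have h3 : B * (rm J * X) = 0 := by
      have h4 := congrArg (fun Y => (rm J')ᵀ * Y) hX
      simp only [Matrix.mul_zero] at h4
      rw [← h4]
      calc B * (rm J * X) = ((rm J')ᵀ * (rm J)ᵀ) * (B * (rm J * X)) := by rw [h2, Matrix.one_mul]
        _ = (rm J')ᵀ * ((rm J)ᵀ * B * rm J * X) := by simp only [Matrix.mul_assoc]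
    have h5 := congrArg (fun Y => B⁻¹ * Y) h3
    simp only [Matrix.mul_zero] at h5
    rwa [← Matrix.mul_assoc, Matrix.nonsing_inv_mul B hB, Matrix.one_mul] at h5
  have ofint : ∀ {a b : ℕ} (X : Matrix (Fin a) (Fin b) ℤ), rm X = 0 → X = 0 := by
    intro a b X hX
    ext i j
    have := congrFun (congrFun hX i) j
    simpa using this
  -- `K A₀ (1 - J' J) = 0`
  have k1 : K * A₀ * (J' * J) = K * A₀ := by
    have h1 : J * (1 - J' * J) = 0 := by
      rw [Matrix.mul_sub, Matrix.mul_one, ← Matrix.mul_assoc, hJ, Matrix.one_mul, sub_self]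
    have h2 : q * rm (1 - J' * J) = 0 := by
      rw [e, Matrix.mul_assoc, ← rm_mul, h1]
      simp
    have h3 : q' * (rm A₀ * rm (1 - J' * J)) = 0 := by
      have h4 : (rm A₀)ᵀ * (q' * (rm A₀ * rm (1 - J' * J))) = 0 := by
        rw [← h2, ← hq]
        simp only [Matrix.mul_assoc]
      have h5 : (rm A₁)ᵀ * (rm A₀)ᵀ = 1 := by
        rw [← Matrix.transpose_mul, h01r, Matrix.transpose_one]
      have h6 := congrArg (fun Y => (rm A₁)ᵀ * Y) h4
      simp only [Matrix.mul_zero] at h6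
      rwa [← Matrix.mul_assoc, h5, Matrix.one_mul] at h6
    rw [e'] at h3
    have h4 := inj B' K K' hK hB' _ h3
    have h5 : K * A₀ * (1 - J' * J) = 0 := ofint _ (by
      rw [rm_mul, rm_mul, Matrix.mul_assoc]
      exact h4)
    rw [Matrix.mul_sub, Matrix.mul_one] at h5
    exact (sub_eq_zero.1 h5).symm
  have k2 : J * A₁ * (K' * K) = J * A₁ := by
    have h1 : K * (1 - K' * K) = 0 := by
      rw [Matrix.mul_sub, Matrix.mul_one, ← Matrix.mul_assoc, hK, Matrix.one_mul, sub_self]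
    have h2 : q' * rm (1 - K' * K) = 0 := by
      rw [e', Matrix.mul_assoc, ← rm_mul, h1]
      simp
    have h3 : q * (rm A₁ * rm (1 - K' * K)) = 0 := by
      rw [← hq]
      have : (rm A₀)ᵀ * q' * rm A₀ * (rm A₁ * rm (1 - K' * K)) =
          (rm A₀)ᵀ * (q' * ((rm A₀ * rm A₁) * rm (1 - K' * K))) := by
        simp only [Matrix.mul_assoc]
      rw [this, h01r, Matrix.one_mul, h2, Matrix.mul_zero]
    rw [e] at h3
    have h4 := inj B J J' hJ hB _ h3
    have h5 : J * A₁ * (1 - K' * K) = 0 := ofint _ (by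
      rw [rm_mul, rm_mul, Matrix.mul_assoc]
      exact h4)
    rw [Matrix.mul_sub, Matrix.mul_one] at h5
    exact (sub_eq_zero.1 h5).symm
  refine ⟨K * A₀ * J', J * A₁ * K', ?_, ?_, ?_, ?_⟩
  · calc K * A₀ * J' * (J * A₁ * K') = (K * A₀ * (J' * J)) * (A₁ * K') := by
          simp only [Matrix.mul_assoc]
      _ = K * (A₀ * A₁) * K' := by rw [k1]; simp only [Matrix.mul_assoc]
      _ = 1 := by rw [h01, Matrix.mul_one, hK]
  · calc J * A₁ * K' * (K * A₀ * J') = (J * A₁ * (K' * K)) * (A₀ * J') := by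
          simp only [Matrix.mul_assoc]
      _ = J * (A₁ * A₀) * J' := by rw [k2]; simp only [Matrix.mul_assoc]
      _ = 1 := by rw [h10, Matrix.mul_one, hJ]
  · rw [Matrix.mul_assoc, k1]
  · have h1 : (rm (K * A₀ * J'))ᵀ * B' * rm (K * A₀ * J') =
        (rm J')ᵀ * ((rm A₀)ᵀ * ((rm K)ᵀ * B' * rm K) * rm A₀) * rm J' := by
      rw [rm_mul, rm_mul, Matrix.transpose_mul, Matrix.transpose_mul]
      simp only [Matrix.mul_assoc]
    rw [h1, ← e', hq, e]
    have h2 : (rm J')ᵀ * (rm J)ᵀ = 1 := by rw [← Matrix.transpose_mul, hJr, Matrix.transpose_one]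
    calc (rm J')ᵀ * ((rm J)ᵀ * B * rm J) * rm J' =
        ((rm J')ᵀ * (rm J)ᵀ) * B * (rm J * rm J') := by simp only [Matrix.mul_assoc]
      _ = B := by rw [h2, hJr, Matrix.one_mul, Matrix.mul_one]

end Vale.Agent.P281.H191.HKT
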