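import Vale.Agent.P281.H834.HKT.Cov
import Vale.Agent.P281.H864.HK.Plug
import Mathlib.Analysis.Fourier.AddCircleMulti

/-!
# P281, project T-HKT (helper191), class C, R1: characters of the torus of the periods
-/

open Set Filter Metric MeasureTheory
open scoped Topology ContDiff ComplexConjugate ComplexOrder

noncomputable section

namespace Vale.Agent.P281.H191.HKT

open Vale.Agent.P281.H64.TK Vale.Agent.P281.H64.TK.TS Vale.Agent.P281.H747.TS
open Vale.Agent.P281.H64 (Cm Mark)
open Vale.Agent.P281.H399.QT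
open Vale.Agent.P281.H83.HK (W WStokesStmt)
open Vale.Agent.P281.H83.HKT
open Vale.Agent.P281.H834.HKT (CAdd dX dX_cl1 dX_smooth wd1 wd1_apply xc cadd_xc XR XR_eq PA W_cov
  thx Ja mem_Ja eJ)

/-! ### Algebra -/

section alg
variable {d : ℕ}

theorem neg_smul1 (c : ℂ) (b : L1 d) : (-c) • b = -(c • b) :=
  ContinuousLinearMap.ext fun v => by
    show -c * b v = -(c * b v)
    ring

/-- Replacing one of the 1-forms by a combination of all of them. -/
theorem VA_comb (J : Finset (Fin d)) (a : Fin d → L2 d) (l : J × Fin 2 → L1 d) (q₀ : J × Fin 2)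
    (m : J × Fin 2 → ℂ) :
    VA J a (Function.update l q₀ (∑ q, m q • l q)) = m q₀ * VA J a l := by
  have h1 : VA J a (Function.update l q₀ (∑ q, m q • l q)) =
      ∑ q, VA J a (Function.update l q₀ (m q • l q)) :=
    (VA J a).toMultilinearMap.map_update_sum Finset.univ q₀ (fun q => m q • l q) l
  rw [h1, Finset.sum_eq_single q₀]
  · rw [AlternatingMap.map_update_smul, Function.update_eq_self, smul_eq_mul]
  · intro q _ hq
    rw [AlternatingMap.map_update_smul, AlternatingMap.map_update_self _ _ hq.symm, smul_zero]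
  · intro h
    exact absurd (Finset.mem_univ _) h

/-- The same for `W`. -/
theorem W_comb (J : Finset (Fin d)) (a a' : Fin d → L2 d) (l : J × Fin 2 → L1 d) (q₀ : J × Fin 2)
    (m : J × Fin 2 → ℂ) (h0 : ∀ i ∉ J, a' i = a i)
    (h : ∀ j (hj : j ∈ J) u v, a j u v =
      l (⟨j, hj⟩, 0) u * l (⟨j, hj⟩, 1) v - l (⟨j, hj⟩, 0) v * l (⟨j, hj⟩, 1) u)
    (h' : ∀ j (hj : j ∈ J) u v, a' j u v =
      Function.update l q₀ (∑ q, m q • l q) (⟨j, hj⟩, 0) u *
        Function.update l q₀ (∑ q, m q • l q) (⟨j, hj⟩, 1) v -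
      Function.update l q₀ (∑ q, m q • l q) (⟨j, hj⟩, 0) v *
        Function.update l q₀ (∑ q, m q • l q) (⟨j, hj⟩, 1) u) :
    W a' = m q₀ * W a := by
  classical
  set l' := Function.update l q₀ (∑ q, m q • l q) with hl'
  rw [W_eq_V J a (ext J l) (fun j hj u v => by rw [ext_mem l hj, ext_mem l hj]; exact h j hj u v),
    W_eq_V J a' (ext J l')
      (fun j hj u v => by rw [ext_mem l' hj, ext_mem l' hj]; exact h' j hj u v)]
  have e : V J a' (ext J l') = V J a (ext J l') := by
    unfold V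
    refine Finset.sum_congr rfl fun π _ => ?_
    congr 2
    refine Finset.prod_congr rfl fun i hi => ?_
    rw [h0 i (Finset.mem_sdiff.1 hi).2]
  rw [e, ← VA_apply, ← VA_apply, hl', VA_comb]
  ring

end alg

/-! ### Stokes -/

section
variable {d : ℕ} {E Γ : Type} [TopologicalSpace E] [T2Space E] [Group Γ] [Subsingleton Γ]
  [MulAction Γ E] [ContinuousConstSMul Γ E] {S : Sheets d E Γ}

/-- **A function with `dg = g ∑ m_q l_q`, `m ≠ 0`, is orthogonal to the products of all the `l_q` and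
closed forms.** -/
theorem int_chr (J : Finset (Fin d)) (l : J × Fin 2 → Fin S.N → Cm d → L1 d)
    (hl : ∀ q, Cl1 S (l q)) (x : Fin d → Fin S.N → Cm d → L2 d) (hx : ∀ k ∉ J, Cl2 S (x k))
    (hxJ : ∀ j (hj : j ∈ J), x j = ww (l (⟨j, hj⟩, 0)) (l (⟨j, hj⟩, 1)))
    (g : E → ℂ) (hg : SmOn S univ g) (m : J × Fin 2 → ℂ) (hm : m ≠ 0)
    (hdg : ∀ i, ∀ z ∈ ball (0 : Cm d) 3,
      fderiv ℝ (fun u => g (S.σ i u)) z = g (S.σ i z) • ∑ q, m q • l q i z) :
    S.int (fun i z => g (S.σ i z) * W (fun k => x k i z)) = 0 := by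
  classical
  have hxc : ∀ k, Cl2 S (x k) := by
    intro k
    by_cases hk : k ∈ J
    · rw [hxJ k hk]
      exact cl2_ww (hl _) (hl _)
    · exact hx k hk
  obtain ⟨q₀, hq₀⟩ : ∃ q, m q ≠ 0 := by
    by_contra hh
    push Not at hh
    exact hm (funext hh)
  obtain ⟨⟨j₀, hj₀⟩, e₀⟩ := q₀
  -- the primitive
  have key : ∃ β : Fin S.N → Cm d → L1 d, F1On S univ β ∧ ∀ i, ∀ z ∈ ball (0 : Cm d) 3,
      W (Function.update (fun k => x k i z) j₀ (d1 (β i) z)) =
        m (⟨j₀, hj₀⟩, e₀) * (g (S.σ i z) * W (fun k => x k i z)) := by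
    have hgl : ∀ q, F1On S univ (fun i z => g (S.σ i z) • l q i z) := by
      intro q
      refine ⟨fun i z hz hV => smul_contDiffAt (hg i z hz hV) ((hl q).smooth i z hz hV),
        fun i j z hz z' hz' hV ψ hψ v => ?_⟩
      show g (S.σ i z) * l q i z v = g (S.σ j z') * l q j z' (fderiv ℝ ψ z v)
      rw [(hl q).change i j z hz z' hz' hV ψ hψ v]
      have h1 : S.σ i z = S.σ j z' := by
        have := hψ.2.2.self_of_nhds
        rw [hψ.2.1] at this
        exact this
      rw [h1]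
    have hdl : ∀ q i, ∀ z ∈ ball (0 : Cm d) 3, ∀ u v,
        d1 (fun z => g (S.σ i z) • l q i z) z u v =
          g (S.σ i z) * ((∑ r, m r • l r i z) u * l q i z v - (∑ r, m r • l r i z) v * l q i z u) := by
      intro q i z hz u v
      have h1 : DifferentiableAt ℝ (fun u => g (S.σ i u)) z :=
        (hg i z hz (mem_univ _)).differentiableAt (by simp)
      have h2 : DifferentiableAt ℝ (l q i) z :=
        ((hl q).smooth i z hz (mem_univ _)).differentiableAt (by simp)
      have h3 : DifferentiableAt ℝ (fun z => g (S.σ i z) • l q i z) z :=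
        ((hgl q).smooth i z hz (mem_univ _)).differentiableAt (by simp)
      show fderiv ℝ (fun z => g (S.σ i z) • l q i z) z u v -
        fderiv ℝ (fun z => g (S.σ i z) • l q i z) z v u = _
      rw [smul_fderiv h1 h2 h3, smul_fderiv h1 h2 h3, hdg i z hz, (hl q).closed i z hz v u]
      show (g (S.σ i z) * (∑ r, m r • l r i z) u * l q i z v + _) -
        (g (S.σ i z) * (∑ r, m r • l r i z) v * l q i z u + _) = _
      ring
    -- `W` of the update
    have hW : ∀ (b : L2 d) (i : Fin S.N) (z : Cm d) (t : ℂ) (β : L2 d), (∀ u v, b u v = t * β u v) →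
        W (Function.update (fun k => x k i z) j₀ b) =
          t * W (Function.update (fun k => x k i z) j₀ β) := by
      intro b i z t β hb
      have h1 : b = t • β := l2_ext fun u v => hb u v
      rw [h1, H864.HK.W_eq, H864.HK.W_eq, H864.HK.W_smul]
    have hne : ∀ e : Fin 2, ∀ j (hj : j ∈ J), j ≠ j₀ → ∀ e',
        ((⟨j, hj⟩, e) : J × Fin 2) ≠ (⟨j₀, hj₀⟩, e') := by
      intro e j hj hjj e' hh
      exact hjj (congrArg (fun q : J × Fin 2 => q.1.1) hh)
    have hc : ∀ (e : Fin 2) (β : L2 d) (i : Fin S.N) (z : Cm d),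
        (∀ u v, β u v =
          Function.update (fun q => l q i z) (⟨j₀, hj₀⟩, e) (∑ q, m q • l q i z) (⟨j₀, hj₀⟩, 0) u *
          Function.update (fun q => l q i z) (⟨j₀, hj₀⟩, e) (∑ q, m q • l q i z) (⟨j₀, hj₀⟩, 1) v -
          Function.update (fun q => l q i z) (⟨j₀, hj₀⟩, e) (∑ q, m q • l q i z) (⟨j₀, hj₀⟩, 0) v *
          Function.update (fun q => l q i z) (⟨j₀, hj₀⟩, e) (∑ q, m q • l q i z)
            (⟨j₀, hj₀⟩, 1) u) →
        W (Function.update (fun k => x k i z) j₀ β) =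
          m (⟨j₀, hj₀⟩, e) * W (fun k => x k i z) := by
      intro e β i z hβ
      refine W_comb J (fun k => x k i z) _ (fun q => l q i z) (⟨j₀, hj₀⟩, e) m ?_ ?_ ?_
      · intro k hk
        rw [Function.update_of_ne]
        rintro rfl
        exact hk hj₀
      · intro j hj u v
        rw [hxJ j hj]
        rfl
      · intro j hj u v
        by_cases hjj : j = j₀
        · subst hjj
          rw [Function.update_self]
          exact hβ u v
        · rw [Function.update_of_ne hjj, Function.update_of_ne (hne 0 j hj hjj e),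
            Function.update_of_ne (hne 1 j hj hjj e), hxJ j hj]
          rfl
    fin_cases e₀
    · refine ⟨fun i z => g (S.σ i z) • l (⟨j₀, hj₀⟩, 1) i z, hgl _, fun i z hz => ?_⟩
      rw [hW _ i z (g (S.σ i z)) (w2 (∑ r, m r • l r i z) (l (⟨j₀, hj₀⟩, 1) i z))
        (hdl _ i z hz), hc 0]
      · show _ = m (⟨j₀, hj₀⟩, 0) * _
        ring
      · intro u v
        have h1 : ((⟨j₀, hj₀⟩, 1) : J × Fin 2) ≠ (⟨j₀, hj₀⟩, 0) := by simp
        rw [Function.update_self, Function.update_of_ne h1]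
        rfl
    · refine ⟨fun i z => (-g (S.σ i z)) • l (⟨j₀, hj₀⟩, 0) i z, ?_, fun i z hz => ?_⟩
      · obtain ⟨k1, k2⟩ := hgl (⟨j₀, hj₀⟩, 0)
        refine ⟨fun i z hz hV => ?_, fun i j z hz z' hz' hV ψ hψ v => ?_⟩
        · have := (k1 i z hz hV).neg
          refine this.congr_of_eventuallyEq (Eventually.of_forall fun y => ?_)
          exact neg_smul1 _ _
        · have := k2 i j z hz z' hz' hV ψ hψ v
          show -g (S.σ i z) * l (⟨j₀, hj₀⟩, 0) i z v =
            -g (S.σ j z') * l (⟨j₀, hj₀⟩, 0) j z' (fderiv ℝ ψ z v)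
          have h2 : g (S.σ i z) * l (⟨j₀, hj₀⟩, 0) i z v =
            g (S.σ j z') * l (⟨j₀, hj₀⟩, 0) j z' (fderiv ℝ ψ z v) := this
          rw [neg_mul, neg_mul, h2]
      · rw [hW _ i z (g (S.σ i z)) (w2 (l (⟨j₀, hj₀⟩, 0) i z) (∑ r, m r • l r i z)) ?_, hc 1]
        · show _ = m (⟨j₀, hj₀⟩, 1) * _
          ring
        · intro u v
          have h1 : ((⟨j₀, hj₀⟩, 0) : J × Fin 2) ≠ (⟨j₀, hj₀⟩, 1) := by simp
          rw [Function.update_self, Function.update_of_ne h1]
          rfl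
        · intro u v
          have h1 := hdl (⟨j₀, hj₀⟩, 0) i z hz u v
          have h2 : d1 (fun z => (-g (S.σ i z)) • l (⟨j₀, hj₀⟩, 0) i z) z u v =
              -(d1 (fun z => g (S.σ i z) • l (⟨j₀, hj₀⟩, 0) i z) z u v) := by
            have h3 : (fun z => (-g (S.σ i z)) • l (⟨j₀, hj₀⟩, 0) i z) =
                fun z => -(g (S.σ i z) • l (⟨j₀, hj₀⟩, 0) i z) := by
              funext y
              exact neg_smul1 _ _
            rw [h3]
            show fderiv ℝ (fun z => -(g (S.σ i z) • l (⟨j₀, hj₀⟩, 0) i z)) z u v -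
              fderiv ℝ (fun z => -(g (S.σ i z) • l (⟨j₀, hj₀⟩, 0) i z)) z v u = _
            rw [show fderiv ℝ (fun z => -(g (S.σ i z) • l (⟨j₀, hj₀⟩, 0) i z)) z =
              -fderiv ℝ (fun z => g (S.σ i z) • l (⟨j₀, hj₀⟩, 0) i z) z from fderiv_neg]
            show -(fderiv ℝ (fun z => g (S.σ i z) • l (⟨j₀, hj₀⟩, 0) i z) z u v) -
              -(fderiv ℝ (fun z => g (S.σ i z) • l (⟨j₀, hj₀⟩, 0) i z) z v u) =
              -(fderiv ℝ (fun z => g (S.σ i z) • l (⟨j₀, hj₀⟩, 0) i z) z u v -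
                fderiv ℝ (fun z => g (S.σ i z) • l (⟨j₀, hj₀⟩, 0) i z) z v u)
            ring
          rw [h2, h1]
          show _ = g (S.σ i z) * (l (⟨j₀, hj₀⟩, 0) i z u * (∑ r, m r • l r i z) v -
            l (⟨j₀, hj₀⟩, 0) i z v * (∑ r, m r • l r i z) u)
          ring
  obtain ⟨β, hβ, hW⟩ := key
  have h1 := H864.HK.wStokes d E Γ S x j₀ β (fun k _ => hxc k) hβ
  have h2 : S.int (fun i z => W (Function.update (fun k => x k i z) j₀ (d1 (β i) z))) =
      m (⟨j₀, hj₀⟩, e₀) * S.int (fun i z => g (S.σ i z) * W (fun k => x k i z)) := by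
    rw [H864.HK.int_congr S fun i z hz => hW i z hz]
    unfold Sheets.int
    rw [Finset.mul_sum]
    exact Finset.sum_congr rfl fun i _ => integral_const_mul _ _
  rw [h2] at h1
  exact (mul_eq_zero.1 h1).resolve_left hq₀

end

end Vale.Agent.P281.H191.HKT
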