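import Vale.Agent.P281.H191.HKT.Chr

/-!
# P281, project T-HKT (helper191), class C, R1: periodic functions of the additive functions
-/

open Set Filter Metric MeasureTheory
open scoped Topology ContDiff ComplexConjugate ComplexOrder

noncomputable section

namespace Vale.Agent.P281.H191.HKT

open Vale.Agent.P281.H64.TK Vale.Agent.P281.H64.TK.TS Vale.Agent.P281.H747.TS
open Vale.Agent.P281.H64 (Cm Mark)
open Vale.Agent.P281.H399.QT
open Vale.Agent.P281.H83.HK (W kw)
open Vale.Agent.P281.H83.HKT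
open Vale.Agent.P281.H834.HKT (CAdd dX dX_cl1 dX_smooth wd1 wd1_apply xc cadd_xc XR XR_eq PA W_cov
  thx Ja mem_Ja eJ eJ_zero eJ_one)

section
variable {a d : ℕ} {E K : Type} [TopologicalSpace E] [Group K] [MulAction K E]

/-- The real coordinates in the lattice of the periods. -/
def xr (M : Mark K (a + a)) (c : K → Fin a → ℂ) (F : E → Fin a → ℂ) (l : Fin a ⊕ Fin a) (e : E) :
    ℝ := ∑ k, (PA M c)⁻¹ l k * Sum.elim (fun j => (F e j).re) (fun j => (F e j).im) k

omit [TopologicalSpace E] [MulAction K E] in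
theorem xc_eq (M : Mark K (a + a)) (c : K → Fin a → ℂ) (F : E → Fin a → ℂ) (l : Fin a ⊕ Fin a)
    (e : E) : xc M c F l e = ((xr M c F l e : ℝ) : ℂ) := by
  unfold xc xr
  rw [Complex.ofReal_sum]
  refine Finset.sum_congr rfl fun k _ => ?_
  rw [Complex.ofReal_mul]
  congr 1
  rcases k with k | k <;> rfl

/-- The point of the torus `ℝ^(2a) / ℤ^(2a)`. -/
def tor (M : Mark K (a + a)) (c : K → Fin a → ℂ) (F : E → Fin a → ℂ) (e : E) :
    UnitAddTorus (Fin a ⊕ Fin a) := fun l => ((xr M c F l e : ℝ) : UnitAddCircle)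

/-- The character `exp(2 π i ∑ n_l x_l)`, on `E`. -/
def chE (M : Mark K (a + a)) (c : K → Fin a → ℂ) (F : E → Fin a → ℂ) (n : Fin a ⊕ Fin a → ℤ)
    (e : E) : ℂ := Complex.exp (∑ l, (2 * Real.pi * Complex.I * n l) * xc M c F l e)

omit [TopologicalSpace E] [MulAction K E] in
theorem mF_tor (M : Mark K (a + a)) (c : K → Fin a → ℂ) (F : E → Fin a → ℂ)
    (n : Fin a ⊕ Fin a → ℤ) (e : E) :
    UnitAddTorus.mFourier n (tor M c F e) = chE M c F n e := by
  unfold chE
  rw [Complex.exp_sum]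
  show ∏ l, fourier (n l) (tor M c F e l) = _
  refine Finset.prod_congr rfl fun l _ => ?_
  show fourier (n l) ((xr M c F l e : ℝ) : AddCircle (1 : ℝ)) = _
  rw [fourier_coe_apply, xc_eq]
  congr 1
  simp

variable {S : Sheets d E K}

theorem chE_inv {M : Mark K (a + a)} {F : E → Fin a → ℂ} {c : K → Fin a → ℂ}
    (hX : ∀ l, CAdd S (xc M c F l) (fun γ => ((M.φ (finSumFinEquiv l) γ : ℝ) : ℂ)))
    (n : Fin a ⊕ Fin a → ℤ) (γ : K) (e : E) : chE M c F n (γ • e) = chE M c F n e := by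
  unfold chE
  have h1 : ∑ l, (2 * Real.pi * Complex.I * n l) * xc M c F l (γ • e) =
      (∑ l, (2 * Real.pi * Complex.I * n l) * xc M c F l e) +
        ((∑ l, n l * M.φ (finSumFinEquiv l) γ : ℤ) : ℂ) * (2 * Real.pi * Complex.I) := by
    push_cast
    rw [Finset.sum_mul, ← Finset.sum_add_distrib]
    refine Finset.sum_congr rfl fun l _ => ?_
    rw [(hX l).add]
    push_cast
    ring
  rw [h1, Complex.exp_add, Complex.exp_int_mul_two_pi_mul_I, mul_one]

/-- The character on the quotient. -/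
def chQ {M : Mark K (a + a)} {F : E → Fin a → ℂ} {c : K → Fin a → ℂ}
    (hX : ∀ l, CAdd S (xc M c F l) (fun γ => ((M.φ (finSumFinEquiv l) γ : ℝ) : ℂ)))
    (n : Fin a ⊕ Fin a → ℤ) (m : Qs K E) : ℂ :=
  Quotient.lift (s := MulAction.orbitRel K E) (chE M c F n) (by
    intro x y hxy
    have h : MulAction.orbitRel K E x y := hxy
    rw [MulAction.orbitRel_apply, MulAction.mem_orbit_iff] at h
    obtain ⟨γ, rfl⟩ := h
    exact chE_inv hX n γ y) m

theorem chE_fderiv {M : Mark K (a + a)} {F : E → Fin a → ℂ} {c : K → Fin a → ℂ}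
    (hX : ∀ l, CAdd S (xc M c F l) (fun γ => ((M.φ (finSumFinEquiv l) γ : ℝ) : ℂ)))
    (n : Fin a ⊕ Fin a → ℤ) (i : Fin S.N) {z : Cm d} (hz : z ∈ ball (0 : Cm d) 3) :
    HasFDerivAt (fun u => chE M c F n (S.σ i u)) (chE M c F n (S.σ i z) •
      ∑ l, (2 * Real.pi * Complex.I * n l) • dX S (xc M c F l) i z) z := by
  have h1 : ∀ l, HasFDerivAt (fun u => xc M c F l (S.σ i u)) (dX S (xc M c F l) i z) z := fun l =>
    (((hX l).smooth i z hz).differentiableAt (by simp)).hasFDerivAt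
  have h2 : HasFDerivAt (fun u => ∑ l, (2 * Real.pi * Complex.I * n l) * xc M c F l (S.σ i u))
      (∑ l, (2 * Real.pi * Complex.I * n l) • dX S (xc M c F l) i z) z :=
    HasFDerivAt.fun_sum fun l _ => (h1 l).const_mul _
  exact h2.cexp

theorem chE_smooth {M : Mark K (a + a)} {F : E → Fin a → ℂ} {c : K → Fin a → ℂ}
    (hX : ∀ l, CAdd S (xc M c F l) (fun γ => ((M.φ (finSumFinEquiv l) γ : ℝ) : ℂ)))
    (n : Fin a ⊕ Fin a → ℤ) (i : Fin S.N) {z : Cm d} (hz : z ∈ ball (0 : Cm d) 3) :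
    ContDiffAt ℝ ∞ (fun u => chE M c F n (S.σ i u)) z := by
  have h2 : ContDiffAt ℝ ∞
      (fun u => ∑ l, (2 * Real.pi * Complex.I * n l) * xc M c F l (S.σ i u)) z :=
    ContDiffAt.sum fun l _ => contDiffAt_const.mul ((hX l).smooth i z hz)
  exact h2.cexp

end

section
variable {a d : ℕ} {E K : Type} [TopologicalSpace E] [Group K] [MulAction K E]
  [ContinuousConstSMul K E] {S : Sheets d E K}

omit [ContinuousConstSMul K E] in
theorem cl1_of {S : Sheets d E K} {β : Fin S.N → Cm d → L1 d} (h : H834.HKT.Cl1 S β) : Cl1 S β :=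
  ⟨h.toF1On, h.closed⟩

/-- The list with the products of the 1-forms at the first places. -/
def cl (had : a ≤ d) (S : Sheets d E K) (X : Fin a ⊕ Fin a → E → ℂ)
    (x : Fin d → Fin S.N → Cm d → L2 d) (k : Fin d) : Fin S.N → Cm d → L2 d :=
  if h : k ∈ Ja a d then ww (dX S (X (eJ had (⟨k, h⟩, 0)))) (dX S (X (eJ had (⟨k, h⟩, 1)))) else x k

omit [ContinuousConstSMul K E] in
theorem cl_mem (had : a ≤ d) (X : Fin a ⊕ Fin a → E → ℂ) (x : Fin d → Fin S.N → Cm d → L2 d)
    {k : Fin d} (h : k ∈ Ja a d) : cl had S X x k =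
      ww (dX S (X (eJ had (⟨k, h⟩, 0)))) (dX S (X (eJ had (⟨k, h⟩, 1)))) := dif_pos h

omit [ContinuousConstSMul K E] in
theorem cl_nmem (had : a ≤ d) (X : Fin a ⊕ Fin a → E → ℂ) (x : Fin d → Fin S.N → Cm d → L2 d)
    {k : Fin d} (h : k ∉ Ja a d) : cl had S X x k = x k := dif_neg h

omit [ContinuousConstSMul K E] in
theorem W_thl {M : Mark K (a + a)} {F : E → Fin a → ℂ} {c : K → Fin a → ℂ} (had : a ≤ d)
    (hdet : (PA M c).det ≠ 0) (hc : ∀ x y j, c (x * y) j = c x j + c y j)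
    (h : ∀ j, Add S (fun e => F e j) (fun γ => c γ j)) {i : Fin S.N} {z : Cm d}
    (hz : z ∈ ball (0 : Cm d) 3) (x : Fin d → Fin S.N → Cm d → L2 d) :
    W (thl (dF S F i z) fun k => x k i z) = (((PA M c).det : ℝ) : ℂ) *
      W (fun k => cl had S (xc M c F) x k i z) := by
  rw [W_cov had hdet hc h hz]
  congr 2
  funext k
  by_cases hk : k ∈ Ja a d
  · rw [cl_mem had (xc M c F) x hk]
    have hk' := mem_Ja.1 hk
    unfold thx
    rw [dif_pos hk']
    rfl
  · rw [cl_nmem had (xc M c F) x hk]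
    have hk' : ¬ k.val < a := fun hh => hk (mem_Ja.2 hh)
    unfold thx
    rw [dif_neg hk']

/-- The integral `∫ g θ_1 ∧ ⋯ ∧ θ_a ∧ x_a ∧ ⋯`. -/
def Ig (S : Sheets d E K) (F : E → Fin a → ℂ) (x : Fin d → Fin S.N → Cm d → L2 d) (g : E → ℂ) : ℂ :=
  (quo S).int fun i z => g (S.σ i z) * W (thl (dF S F i z) fun k => x k i z)

/-- **The integral of a character is zero.** -/
theorem Ig_chr [T2Space (Qs K E)] {M : Mark K (a + a)} {F : E → Fin a → ℂ} {c : K → Fin a → ℂ}
    (had : a ≤ d) (hdet : (PA M c).det ≠ 0) (hc : ∀ x y j, c (x * y) j = c x j + c y j)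
    (h : ∀ j, Add S (fun e => F e j) (fun γ => c γ j)) {x : Fin d → Fin S.N → Cm d → L2 d}
    (hx : ∀ k, Cl2 (quo S) (x k)) {n : Fin a ⊕ Fin a → ℤ} (hn : n ≠ 0) :
    Ig S F x (chE M c F n) = 0 := by
  have hC : ∀ j, CAdd S (fun e => F e j) (fun γ => c γ j) := fun j => CAdd.of_Add (h j)
  have hX := fun l => cadd_xc (S := S) hdet hc hC l
  have h1 := int_chr (S := quo S) (Ja a d) (fun q => dX S (xc M c F (eJ had q)))
    (fun q => cl1_of (dX_cl1 (hX _))) (cl had S (xc M c F) x)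
    (fun k hk => by rw [cl_nmem had _ _ hk]; exact hx k)
    (fun j hj => cl_mem had _ _ hj) (chQ hX n)
    (fun i z hz _ => chE_smooth hX n i hz)
    (fun q => 2 * Real.pi * Complex.I * n (eJ had q))
    (by
      intro hh
      apply hn
      funext l
      have h2 := congrFun hh ((eJ had).symm l)
      simp only [Equiv.apply_symm_apply, Pi.zero_apply, mul_eq_zero] at h2
      rcases h2 with h2 | h2
      · exact absurd h2 (by simp [Real.pi_ne_zero])
      · exact_mod_cast h2)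
    (by
      intro i z hz
      have h2 := (chE_fderiv hX n i hz).fderiv
      refine h2.trans ?_
      congr 1
      exact (Equiv.sum_comp (eJ had)
        (fun l => (2 * Real.pi * Complex.I * n l) • dX S (xc M c F l) i z)).symm)
  have h2 : Ig S F x (chE M c F n) = (((PA M c).det : ℝ) : ℂ) * (quo S).int (fun i z =>
      chQ hX n ((quo S).σ i z) * W (fun k => cl had S (xc M c F) x k i z)) := by
    unfold Ig
    rw [H864.HK.int_congr (quo S) (D' := fun i z => (((PA M c).det : ℝ) : ℂ) *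
      (chQ hX n ((quo S).σ i z) * W (fun k => cl had S (xc M c F) x k i z))) fun i z hz => ?_]
    · unfold Sheets.int
      rw [Finset.mul_sum]
      exact Finset.sum_congr rfl fun i _ => integral_const_mul _ _
    · refine (congrArg (fun t => chE M c F n (S.σ i z) * t)
        (W_thl (S := S) (i := i) had hdet hc h hz x)).trans ?_
      show chE M c F n (S.σ i z) * (_ * _) = _ * (chE M c F n (S.σ i z) * _)
      ring
  rw [h2, h1, mul_zero]

end

end Vale.Agent.P281.H191.HKT
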