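import Vale.Agent.P281.H191.HKT.Chr2

/-!
# P281, project T-HKT (helper191), class C, R1: the integral of a periodic function of `F`
-/

open Set Filter Metric MeasureTheory
open scoped Topology ContDiff ComplexConjugate ComplexOrder

noncomputable section

namespace Vale.Agent.P281.H191.HKT

open Vale.Agent.P281.H64.TK Vale.Agent.P281.H64.TK.TS Vale.Agent.P281.H747.TS
open Vale.Agent.P281.H64 (Cm Mark)
open Vale.Agent.P281.H399.QT
open Vale.Agent.P281.H83.HK (W kw)
open Vale.Agent.P281.H83.HKT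
open Vale.Agent.P281.H834.HKT (CAdd dX dX_cl1 dX_smooth wd1 wd1_apply xc cadd_xc XR XR_eq PA W_cov
  thx Ja mem_Ja eJ eJ_zero eJ_one)

/-! ### Periodic functions -/

section
variable {a : ℕ} {K : Type} [Group K]

/-- The vector of `ℂ^a` with the coordinates `t` in the lattice of the periods. -/
def vt (M : Mark K (a + a)) (c : K → Fin a → ℂ) (t : Fin a ⊕ Fin a → ℝ) (j : Fin a) : ℂ :=
  ((∑ l, PA M c (Sum.inl j) l * t l : ℝ) : ℂ) + ((∑ l, PA M c (Sum.inr j) l * t l : ℝ) : ℂ) *
    Complex.I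

theorem vt_add (M : Mark K (a + a)) (c : K → Fin a → ℂ) (t s : Fin a ⊕ Fin a → ℝ) :
    vt M c (t + s) = vt M c t + vt M c s := by
  funext j
  show ((∑ l, PA M c (Sum.inl j) l * (t l + s l) : ℝ) : ℂ) +
    ((∑ l, PA M c (Sum.inr j) l * (t l + s l) : ℝ) : ℂ) * Complex.I = vt M c t j + vt M c s j
  unfold vt
  simp only [mul_add, Finset.sum_add_distrib]
  push_cast
  ring

theorem vt_int (M : Mark K (a + a)) (c : K → Fin a → ℂ) (n : Fin a ⊕ Fin a → ℤ) :
    vt M c (fun l => (n l : ℝ)) = ∑ l, n l • c (M.g (finSumFinEquiv l)) := by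
  funext j
  rw [Finset.sum_apply]
  unfold vt PA
  push_cast
  rw [Finset.sum_mul, ← Finset.sum_add_distrib]
  refine Finset.sum_congr rfl fun l _ => ?_
  rw [Pi.smul_apply, zsmul_eq_mul]
  apply Complex.ext
  · simp
    ring
  · simp
    ring

theorem continuous_vt (M : Mark K (a + a)) (c : K → Fin a → ℂ) : Continuous (vt M c) := by
  refine continuous_pi fun j => ?_
  unfold vt
  refine Continuous.add (Complex.continuous_ofReal.comp ?_)
    ((Complex.continuous_ofReal.comp ?_).mul continuous_const)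
  · exact continuous_finsetSum _ fun l _ => continuous_const.mul (continuous_apply l)
  · exact continuous_finsetSum _ fun l _ => continuous_const.mul (continuous_apply l)

theorem per_sum {c : K → Fin a → ℂ} (hc : ∀ x y j, c (x * y) j = c x j + c y j) {ι : Type}
    (s : Finset ι) (n : ι → ℤ) (g : ι → K) : ∃ γ, c γ = ∑ l ∈ s, n l • c (g l) := by
  have hc' : ∀ x y, c (x * y) = c x + c y := fun x y => funext fun j => hc x y j
  have h1 : c 1 = 0 := by
    have := hc' 1 1
    rw [mul_one] at this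
    exact left_eq_add.1 this
  have hinv : ∀ x, c x⁻¹ = -c x := by
    intro x
    have := hc' x x⁻¹
    rw [mul_inv_cancel, h1] at this
    exact (neg_eq_of_add_eq_zero_right this.symm).symm
  let R : AddSubgroup (Fin a → ℂ) :=
    { carrier := {w | ∃ γ, c γ = w}
      zero_mem' := ⟨1, h1⟩
      add_mem' := by
        rintro _ _ ⟨x, rfl⟩ ⟨y, rfl⟩
        exact ⟨x * y, hc' x y⟩
      neg_mem' := by
        rintro _ ⟨x, rfl⟩
        exact ⟨x⁻¹, hinv x⟩ }
  have h2 : ∑ l ∈ s, n l • c (g l) ∈ R :=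
    R.sum_mem fun l _ => R.zsmul_mem ⟨g l, rfl⟩ (n l)
  exact h2

/-- A continuous periodic function on `ℂ^a` as a function on the torus. -/
theorem exists_psi (M : Mark K (a + a)) {c : K → Fin a → ℂ}
    (hc : ∀ x y j, c (x * y) j = c x j + c y j) {φ : (Fin a → ℂ) → ℂ} (hφ : Continuous φ)
    (hper : ∀ γ v, φ (v + c γ) = φ v) : ∃ ψ : C(UnitAddTorus (Fin a ⊕ Fin a), ℂ),
      ∀ t : Fin a ⊕ Fin a → ℝ, ψ (fun l => ((t l : ℝ) : UnitAddCircle)) = φ (vt M c t) := by
  have hq : IsOpenQuotientMap (Pi.map (fun (_ : Fin a ⊕ Fin a) (x : ℝ) => (x : UnitAddCircle))) :=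
    IsOpenQuotientMap.piMap fun _ => QuotientAddGroup.isOpenQuotientMap_mk
  let g : C(Fin a ⊕ Fin a → ℝ, ℂ) := ⟨fun t => φ (vt M c t), hφ.comp (continuous_vt M c)⟩
  let f : C(Fin a ⊕ Fin a → ℝ, UnitAddTorus (Fin a ⊕ Fin a)) :=
    ⟨Pi.map (fun (_ : Fin a ⊕ Fin a) (x : ℝ) => (x : UnitAddCircle)), hq.continuous⟩
  have hqf : Topology.IsQuotientMap f := hq.isQuotientMap
  have hf : Function.FactorsThrough g f := by
    intro t s hts
    have h1 : ∀ l, ∃ n : ℤ, s l = t l + n := by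
      intro l
      have h2 : ((t l : ℝ) : UnitAddCircle) = (s l : ℝ) := congrFun hts l
      rw [QuotientAddGroup.eq, AddSubgroup.mem_zmultiples_iff] at h2
      obtain ⟨n, hn⟩ := h2
      refine ⟨n, ?_⟩
      rw [zsmul_eq_mul, mul_one] at hn
      linarith
    choose n hn using h1
    have h3 : s = t + fun l => (n l : ℝ) := funext hn
    obtain ⟨γ, hγ⟩ := per_sum hc Finset.univ n (fun l => M.g (finSumFinEquiv l))
    show φ (vt M c t) = φ (vt M c s)
    rw [h3, vt_add, vt_int, ← hγ, hper]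
  refine ⟨hqf.lift g hf, fun t => ?_⟩
  have h1 := hqf.lift_comp g hf
  exact congrArg (fun k : C(Fin a ⊕ Fin a → ℝ, ℂ) => k t) h1

theorem vt_xr {E : Type} {M : Mark K (a + a)} {c : K → Fin a → ℂ} (F : E → Fin a → ℂ)
    (hdet : (PA M c).det ≠ 0) (e : E) : vt M c (fun l => xr M c F l e) = F e := by
  funext j
  have h1 := congrFun (XR_eq (M := M) (F := F) (c := c) hdet (Sum.inl j)) e
  have h2 := congrFun (XR_eq (M := M) (F := F) (c := c) hdet (Sum.inr j)) e
  have h3 : XR F (Sum.inl j) e = ((F e j).re : ℂ) := rfl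
  have h4 : XR F (Sum.inr j) e = ((F e j).im : ℂ) := rfl
  rw [h3] at h1
  rw [h4] at h2
  unfold vt
  have h5 : ((∑ l, PA M c (Sum.inl j) l * xr M c F l e : ℝ) : ℂ) = ((F e j).re : ℂ) := by
    rw [h1]
    push_cast
    exact Finset.sum_congr rfl fun l _ => by rw [xc_eq]
  have h6 : ((∑ l, PA M c (Sum.inr j) l * xr M c F l e : ℝ) : ℂ) = ((F e j).im : ℂ) := by
    rw [h2]
    push_cast
    exact Finset.sum_congr rfl fun l _ => by rw [xc_eq]
  rw [h5, h6, Complex.re_add_im]

end

/-! ### The functional -/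

theorem tl_lt {a d : ℕ} {E Γ : Type} [TopologicalSpace E] [Group Γ] [MulAction Γ E]
    {S : Sheets d E Γ} (u : Fin S.N → Cm d → Matrix (Fin a) (Fin d) ℂ)
    (x : Fin d → Fin S.N → Cm d → L2 d) {l : Fin d} (h : l.val < a) :
    tl u x l = fun i z => thj (u i z) ⟨l.val, h⟩ := dif_pos h

theorem tl_ge {a d : ℕ} {E Γ : Type} [TopologicalSpace E] [Group Γ] [MulAction Γ E]
    {S : Sheets d E Γ} (u : Fin S.N → Cm d → Matrix (Fin a) (Fin d) ℂ)
    (x : Fin d → Fin S.N → Cm d → L2 d) {l : Fin d} (h : ¬ l.val < a) :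
    tl u x l = x l := dif_neg h

section
variable {a d : ℕ} {E K : Type} [TopologicalSpace E] [Group K] [MulAction K E]
  [ContinuousConstSMul K E] {S : Sheets d E K}

omit [ContinuousConstSMul K E] in
theorem cont_tor {M : Mark K (a + a)} {F : E → Fin a → ℂ} {c : K → Fin a → ℂ}
    (hX : ∀ l, CAdd S (xc M c F l) (fun γ => ((M.φ (finSumFinEquiv l) γ : ℝ) : ℂ))) (i : Fin S.N) :
    ContinuousOn (fun z => tor M c F (S.σ i z)) (ball 0 3) := by
  rw [continuousOn_pi]
  intro l z hz
  have h1 : ContinuousAt (fun u => xc M c F l (S.σ i u)) z := ((hX l).smooth i z hz).continuousAt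
  have h2 : ContinuousAt (fun u => xr M c F l (S.σ i u)) z := by
    have h3 := Complex.continuous_re.continuousAt.comp h1
    refine h3.congr (Eventually.of_forall fun u => ?_)
    show (xc M c F l (S.σ i u)).re = _
    rw [xc_eq, Complex.ofReal_re]
  exact ((AddCircle.continuous_mk' (1 : ℝ)).continuousAt.comp h2).continuousWithinAt

theorem cont_thl {F : E → Fin a → ℂ} (hu : Hol1 (quo S) (dF S F))
    {x : Fin d → Fin S.N → Cm d → L2 d} (hx : ∀ k, Cl2 (quo S) (x k)) (i : Fin S.N) :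
    ContinuousOn (fun z => W (thl (dF S F i z) fun k => x k i z)) (ball 0 3) := by
  refine (H864.HK.wint_cont (S := quo S) (tl_cl (S := quo S) hu fun l _ => hx l) i).congr
    fun z _ => ?_
  rw [H864.HK.W_eq]
  congr 1
  funext l
  by_cases hl : l.val < a
  · exact (dif_pos hl).trans (congrFun (congrFun (tl_lt (S := quo S) (dF S F) x hl) i) z).symm
  · exact (dif_neg hl).trans (congrFun (congrFun (tl_ge (S := quo S) (dF S F) x hl) i) z).symm

/-- `ψ ↦ ∫ ψ(F) θ_1 ∧ ⋯ ∧ θ_a ∧ x_a ∧ ⋯` is a continuous linear form. -/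
theorem exists_L {M : Mark K (a + a)} {F : E → Fin a → ℂ} {c : K → Fin a → ℂ}
    (hu : Hol1 (quo S) (dF S F))
    (hX : ∀ l, CAdd S (xc M c F l) (fun γ => ((M.φ (finSumFinEquiv l) γ : ℝ) : ℂ)))
    {x : Fin d → Fin S.N → Cm d → L2 d} (hx : ∀ k, Cl2 (quo S) (x k)) :
    ∃ L : C(UnitAddTorus (Fin a ⊕ Fin a), ℂ) →L[ℂ] ℂ,
      ∀ ψ, L ψ = Ig S F x (fun e => ψ (tor M c F e)) := by
  have hint : ∀ (ψ : C(UnitAddTorus (Fin a ⊕ Fin a), ℂ)) (i : Fin S.N),
      IntegrableOn (fun z => ψ (tor M c F (S.σ i z)) * W (thl (dF S F i z) fun k => x k i z))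
        ((quo S).P i) := fun ψ i => by
    refine H840.TS.integ (quo S) i ?_ (H840.TS.P_sub (quo S) i)
    exact (ψ.continuous.comp_continuousOn (cont_tor hX i)).mul (cont_thl hu hx i)
  have hint0 : ∀ i : Fin S.N, IntegrableOn (fun z => W (thl (dF S F i z) fun k => x k i z))
      ((quo S).P i) := fun i =>
    H840.TS.integ (quo S) i (cont_thl hu hx i) (H840.TS.P_sub (quo S) i)
  let L₀ : C(UnitAddTorus (Fin a ⊕ Fin a), ℂ) →ₗ[ℂ] ℂ :=
    { toFun := fun ψ => Ig S F x (fun e => ψ (tor M c F e))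
      map_add' := fun ψ ψ' => by
        unfold Ig Sheets.int
        rw [← Finset.sum_add_distrib]
        refine Finset.sum_congr rfl fun i _ => ?_
        rw [← integral_add (hint ψ i) (hint ψ' i)]
        congr 1
        funext z
        show (ψ _ + ψ' _) * _ = _
        ring
      map_smul' := fun r ψ => by
        unfold Ig Sheets.int
        rw [RingHom.id_apply, smul_eq_mul, Finset.mul_sum]
        refine Finset.sum_congr rfl fun i _ => ?_
        rw [← integral_const_mul]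
        congr 1
        funext z
        show (r * ψ _) * _ = _
        ring }
  let C : ℝ := ∑ i, ∫ z in (quo S).P i, ‖W (thl (dF S F i z) fun k => x k i z)‖
  refine ⟨L₀.mkContinuous C fun ψ => ?_, fun ψ => rfl⟩
  show ‖Ig S F x (fun e => ψ (tor M c F e))‖ ≤ C * ‖ψ‖
  unfold Ig Sheets.int
  refine (norm_sum_le _ _).trans ?_
  show _ ≤ (∑ i, ∫ z in (quo S).P i, ‖W (thl (dF S F i z) fun k => x k i z)‖) * ‖ψ‖
  rw [Finset.sum_mul]
  refine Finset.sum_le_sum fun i _ => ?_
  refine (norm_integral_le_integral_norm _).trans ?_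
  rw [← integral_mul_const]
  refine integral_mono (hint ψ i).norm ((hint0 i).norm.mul_const _) fun z => ?_
  show ‖ψ (tor M c F (S.σ i z)) * _‖ ≤ _ * _
  rw [norm_mul, mul_comm]
  exact mul_le_mul_of_nonneg_left (ψ.norm_coe_le_norm _) (norm_nonneg _)

/-- **The integrals of a periodic function of `F` against two lists of closed forms.** -/
theorem chr_main {M : Mark K (a + a)} {F : E → Fin a → ℂ} {c : K → Fin a → ℂ}
    [T2Space (Qs K E)] (had : a ≤ d)
    (hdet : (PA M c).det ≠ 0) (hc : ∀ x y j, c (x * y) j = c x j + c y j)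
    (h : ∀ j, Add S (fun e => F e j) (fun γ => c γ j)) (hu : Hol1 (quo S) (dF S F))
    {x x' : Fin d → Fin S.N → Cm d → L2 d} (hx : ∀ k, Cl2 (quo S) (x k))
    (hx' : ∀ k, Cl2 (quo S) (x' k)) {φ : (Fin a → ℂ) → ℂ} (hφ : Continuous φ)
    (hper : ∀ γ v, φ (v + c γ) = φ v) :
    tT (quo S) (dF S F) x' * Ig S F x (fun e => φ (F e)) =
      tT (quo S) (dF S F) x * Ig S F x' (fun e => φ (F e)) := by
  have hC : ∀ j, CAdd S (fun e => F e j) (fun γ => c γ j) := fun j => CAdd.of_Add (h j)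
  have hX := fun l => cadd_xc (S := S) hdet hc hC l
  obtain ⟨L, hL⟩ := exists_L hu hX hx
  obtain ⟨L', hL'⟩ := exists_L hu hX hx'
  obtain ⟨ψ, hψ⟩ := exists_psi M hc hφ hper
  let Λ : C(UnitAddTorus (Fin a ⊕ Fin a), ℂ) →L[ℂ] ℂ :=
    tT (quo S) (dF S F) x' • L - tT (quo S) (dF S F) x • L'
  have hΛ : ∀ ψ, Λ ψ = tT (quo S) (dF S F) x' * L ψ - tT (quo S) (dF S F) x * L' ψ := fun ψ => rfl
  have hone : ∀ {x : Fin d → Fin S.N → Cm d → L2 d}, Ig S F x (fun _ => 1) =
      tT (quo S) (dF S F) x := by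
    intro x
    unfold Ig tT
    congr 1
    funext i z
    rw [one_mul]
  have hz : ∀ ψ, Λ ψ = 0 := by
    have h1 : (Submodule.span ℂ (range (UnitAddTorus.mFourier (d := Fin a ⊕ Fin a)))).topologicalClosure
        ≤ Λ.ker := by
      refine Submodule.topologicalClosure_minimal _ ?_ Λ.isClosed_ker
      rw [Submodule.span_le]
      rintro _ ⟨n, rfl⟩
      show Λ (UnitAddTorus.mFourier n) = 0
      rw [hΛ, hL, hL']
      have h2 : (fun e => UnitAddTorus.mFourier n (tor M c F e)) = chE M c F n :=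
        funext fun e => mF_tor M c F n e
      rw [h2]
      by_cases hn : n = 0
      · subst hn
        have h3 : chE M c F 0 = fun _ => 1 := by
          funext e
          unfold chE
          simp
        rw [h3, hone, hone]
        ring
      · rw [Ig_chr had hdet hc h hx hn, Ig_chr had hdet hc h hx' hn]
        ring
    rw [UnitAddTorus.span_mFourier_closure_eq_top] at h1
    intro ψ
    exact h1 (Submodule.mem_top)
  have h4 := hz ψ
  rw [hΛ, hL, hL', sub_eq_zero] at h4
  have h5 : (fun e => ψ (tor M c F e)) = fun e => φ (F e) := by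
    funext e
    have h6 := hψ (fun l => xr M c F l e)
    rw [vt_xr F hdet] at h6
    exact h6
  rwa [h5] at h4

end

end Vale.Agent.P281.H191.HKT
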