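import Vale.Agent.P281.H191.HKT.Chr3

/-!
# P281, project T-HKT (helper191), class C: R1, characters
-/

open Set Filter Metric MeasureTheory
open scoped Topology ContDiff ComplexConjugate ComplexOrder

noncomputable section

namespace Vale.Agent.P281.H191.HKT

open Vale.Agent.P281.H64.TK Vale.Agent.P281.H64.TK.TS Vale.Agent.P281.H747.TS
open Vale.Agent.P281.H64 (Cm Mark)
open Vale.Agent.P281.H399.QT
open Vale.Agent.P281.H83.HK (W kw)
open Vale.Agent.P281.H83.HKT
open Vale.Agent.P281.H834.HKT (PA cov_eq)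

theorem W4_eq_thl {a d : ℕ} (hd : a + 2 ≤ d) (u : Matrix (Fin a) (Fin d) ℂ) (x y c : L2 d) :
    W4 u x y c = W (thl u fun l => if l.val = a then x else if l.val = a + 1 then y else c) := by
  rw [W4, H864.HK.W_eq, H864.HK.W_eq, ← H864.HK.W_perm (lst u x y c) (rot hd)]
  congr 1
  funext l
  unfold lst thl rot
  simp only [Equiv.coe_fn_mk]
  have hl := l.2
  by_cases h1 : l.val < a
  · simp [h1]
  · by_cases h2 : l.val = a
    · simp [h2]
    · by_cases h3 : l.val = a + 1
      · simp [h3]
      · have h4 : ¬ l.val - 2 < a := by omega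
        have h5 : ¬ l.val = 0 := by omega
        have h6 : ¬ l.val = 1 := by omega
        simp [h1, h2, h3, h4, h5, h6]

theorem xyc_ap {a d N : ℕ} (x y c : Fin N → Cm d → L2 d) (l : Fin d) (i : Fin N) (z : Cm d) :
    (if l.val = a then x else if l.val = a + 1 then y else c) i z =
      if l.val = a then x i z else if l.val = a + 1 then y i z else c i z := by
  split_ifs <;> rfl

/-- **R1** -/
theorem char_of (hB : BasTStmt) : ∀ (a d : ℕ) (E K : Type) [TopologicalSpace E] [T2Space E]
    [SimplyConnectedSpace E] [Group K] [MulAction K E] [ContinuousConstSMul K E] (S : Sheets d E K)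
    (w : Fin S.N → Cm d → Matrix (Fin d) (Fin d) ℂ) (M : Mark K (a + a)) (F : E → Fin a → ℂ)
    (c : K → Fin a → ℂ) (φ : Cm a → ℂ) (x y k : Fin S.N → Cm d → L2 d), a + 2 ≤ d → Kah S w →
    IsBas S F c → Continuous φ → (∀ t γ, φ (t + c γ) = φ t) → Cl2 (quo S) x → Cl2 (quo S) y →
    Cl2 (quo S) k → bT (quo S) (dF S F) k k k * (quo S).int (fun i z =>
      φ (F (S.σ i z)) * W4 (dF S F i z) (x i z) (y i z) (k i z)) =
    bT (quo S) (dF S F) x y k * (quo S).int (fun i z =>
      φ (F (S.σ i z)) * W4 (dF S F i z) (k i z) (k i z) (k i z)) := by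
  intro a d E K _ _ _ _ _ _ S w M F c φ x y k hd hw hbas hφ hper hx hy hk
  have : T2Space (Qs K E) := t2_quo S
  obtain ⟨hu, -, hcov⟩ := hB d a E K S w M F c (by omega) hw hbas
  have hdet : (PA M c).det ≠ 0 := by
    intro h0
    rw [cov_eq, h0, abs_zero] at hcov
    exact lt_irrefl _ hcov
  have hc : ∀ x y j, c (x * y) j = c x j + c y j := by
    intro x y j
    obtain ⟨e⟩ : Nonempty E := inferInstance
    have h1 := (hbas.add j).add (x * y) e
    have h2 := (hbas.add j).add x (y • e)
    have h3 := (hbas.add j).add y e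
    rw [mul_smul, h2, h3] at h1
    linear_combination -h1
  have h1 := chr_main (S := S) (by omega) hdet hc hbas.add hu
    (x := xyc (S := quo S) a x y k) (x' := xyc (S := quo S) a k k k)
    (xyc_prop (S := quo S) hx hy hk) (xyc_prop (S := quo S) hk hk hk) hφ
    (fun γ v => hper v γ)
  have e1 := bT_eq_tT (S := quo S) hd (dF S F) k k k
  have e2 := bT_eq_tT (S := quo S) hd (dF S F) x y k
  have h2 : ∀ x y k : Fin S.N → Cm d → L2 d, Ig S F (xyc (S := quo S) a x y k) (fun e => φ (F e)) =
      (quo S).int (fun i z => φ (F (S.σ i z)) * W4 (dF S F i z) (x i z) (y i z) (k i z)) := by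
    intro x y k
    unfold Ig
    congr 1
    funext i z
    refine congrArg (fun t => φ (F (S.σ i z)) * t) ?_
    refine Eq.trans ?_ (W4_eq_thl hd (dF S F i z) (x i z) (y i z) (k i z)).symm
    congr 2
    funext l
    exact xyc_ap x y k l i z
  exact (congrArg₂ (· * ·) e1 (h2 x y k).symm).trans
    (h1.trans (congrArg₂ (· * ·) e2.symm (h2 k k k)))

end Vale.Agent.P281.H191.HKT
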