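import Vale.Agent.P281.H191.HKT.Alt
import Vale.Agent.P281.H864.HK.WInt
import Vale.Agent.P281.H747.TS.Mk
import Vale.Agent.P281.H702.TS.HF

/-!
# P281, project T-HKT (helper191): closed 1-forms, their products and their classes
-/

open Set Filter Metric MeasureTheory Vale.Agent.P272.K
open scoped Topology ContDiff ComplexConjugate ComplexOrder

noncomputable section

namespace Vale.Agent.P281.H191.HKT

open Vale.Agent.P281.H64.TK Vale.Agent.P281.H64.TK.TS Vale.Agent.P281.H747.TS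

variable {d : ℕ}

theorem w2_contDiffOn {β γ : Cm d → L1 d} {U : Set (Cm d)} (hβ : ContDiffOn ℝ ∞ β U)
    (hγ : ContDiffOn ℝ ∞ γ U) : ContDiffOn ℝ ∞ (fun z => w2 (β z) (γ z)) U := by
  refine H702.TS.sm2 fun u v => ?_
  have h1 : ∀ v, ContDiffOn ℝ ∞ (fun z => β z v) U := fun v => hβ.clm_apply contDiffOn_const
  have h2 : ∀ v, ContDiffOn ℝ ∞ (fun z => γ z v) U := fun v => hγ.clm_apply contDiffOn_const
  exact ((h1 u).mul (h2 v)).sub ((h1 v).mul (h2 u))

theorem fd1 {α : Cm d → L1 d} {z : Cm d} (h : DifferentiableAt ℝ α z) (v : Cm d) :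
    HasFDerivAt (fun z => α z v) ((fderiv ℝ α z).flip v) z := by
  have h1 := h.hasFDerivAt.clm_apply (hasFDerivAt_const v z)
  refine h1.congr_fderiv ?_
  ext w
  simp

theorem w2_fderiv {β γ : Cm d → L1 d} {z : Cm d} (hβ : DifferentiableAt ℝ β z)
    (hγ : DifferentiableAt ℝ γ z) (hw : DifferentiableAt ℝ (fun z => w2 (β z) (γ z)) z)
    (u v w : Cm d) :
    fderiv ℝ (fun z => w2 (β z) (γ z)) z u v w =
      (fderiv ℝ β z u v * γ z w - fderiv ℝ β z u w * γ z v) +
        (β z v * fderiv ℝ γ z u w - β z w * fderiv ℝ γ z u v) := by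
  rw [H702.TS.fd2 hw]
  have h1 : HasFDerivAt (fun z => w2 (β z) (γ z) v w)
      ((β z v • (fderiv ℝ γ z).flip w + γ z w • (fderiv ℝ β z).flip v) -
        (β z w • (fderiv ℝ γ z).flip v + γ z v • (fderiv ℝ β z).flip w)) z :=
    ((fd1 hβ v).mul (fd1 hγ w)).sub ((fd1 hβ w).mul (fd1 hγ v))
  rw [h1.fderiv]
  show (β z v * fderiv ℝ γ z u w + γ z w * fderiv ℝ β z u v) -
    (β z w * fderiv ℝ γ z u v + γ z v * fderiv ℝ β z u w) = _
  ring

section
variable {E Γ : Type} [TopologicalSpace E] [Group Γ] [MulAction Γ E] {S : Sheets d E Γ}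

/-- `β` is a closed smooth 1-form on `E`. -/
structure Cl1 (S : Sheets d E Γ) (β : Fin S.N → Cm d → L1 d) : Prop extends F1On S univ β where
  closed : ∀ i, ∀ z ∈ ball (0 : Cm d) 3, ∀ u v, fderiv ℝ (β i) z u v = fderiv ℝ (β i) z v u

/-- `β` is real. -/
def Real1 (S : Sheets d E Γ) (β : Fin S.N → Cm d → L1 d) : Prop :=
  ∀ i, ∀ z ∈ ball (0 : Cm d) 3, ∀ u, (β i z u).im = 0

/-- `β` on `E` is the pull-back of `β'` on `E'` by `τ`. -/
def Pull1 {E' Γ' : Type} [TopologicalSpace E'] [Group Γ'] [MulAction Γ' E'] (S : Sheets d E Γ)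
    (S' : Sheets d E' Γ') (τ : E → E') (β : Fin S.N → Cm d → L1 d)
    (β' : Fin S'.N → Cm d → L1 d) : Prop :=
  ∀ i j, ∀ z ∈ ball (0 : Cm d) 3, ∀ z' ∈ ball (0 : Cm d) 3, ∀ ψ, Tr S S' τ i j z z' ψ →
    ∀ u, β i z u = β' j z' (fderiv ℝ ψ z u)

/-- `β - β'` is the differential of a smooth function. -/
def Ex1 (S : Sheets d E Γ) (β β' : Fin S.N → Cm d → L1 d) : Prop :=
  ∃ f : E → ℂ, SmOn S univ f ∧ IsD0 S univ f (fun i z => β i z - β' i z)

/-- `β ∧ γ`. -/
def ww {N : ℕ} (β γ : Fin N → Cm d → L1 d) : Fin N → Cm d → L2 d := fun i z => w2 (β i z) (γ i z)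

theorem f1_on {β : Fin S.N → Cm d → L1 d} (hβ : F1On S univ β) (i : Fin S.N) :
    ContDiffOn ℝ ∞ (β i) (ball 0 3) :=
  fun z hz => (hβ.smooth i z hz (mem_univ _)).contDiffWithinAt

theorem ww_smooth {β γ : Fin S.N → Cm d → L1 d} (hβ : F1On S univ β) (hγ : F1On S univ γ)
    (i : Fin S.N) (z : Cm d) (hz : z ∈ ball (0 : Cm d) 3) : ContDiffAt ℝ ∞ (ww β γ i) z :=
  (w2_contDiffOn (f1_on hβ i) (f1_on hγ i)).contDiffAt (isOpen_ball.mem_nhds hz)

theorem cl2_ww {β γ : Fin S.N → Cm d → L1 d} (hβ : Cl1 S β) (hγ : Cl1 S γ) : Cl2 S (ww β γ) where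
  smooth i z hz _ := ww_smooth hβ.toF1On hγ.toF1On i z hz
  alt i z _ _ u v := by
    show β i z u * γ i z v - β i z v * γ i z u = -(β i z v * γ i z u - β i z u * γ i z v)
    ring
  change i j z hz z' hz' hV ψ hψ u v := by
    show β i z u * γ i z v - β i z v * γ i z u = _
    rw [hβ.change i j z hz z' hz' hV ψ hψ u, hβ.change i j z hz z' hz' hV ψ hψ v,
      hγ.change i j z hz z' hz' hV ψ hψ u, hγ.change i j z hz z' hz' hV ψ hψ v]
    rfl
  closed i z hz u v w := by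
    have h1 : DifferentiableAt ℝ (β i) z := (hβ.smooth i z hz (mem_univ _)).differentiableAt
      (by simp)
    have h2 : DifferentiableAt ℝ (γ i) z := (hγ.smooth i z hz (mem_univ _)).differentiableAt
      (by simp)
    have e : ww β γ i = fun z => w2 (β i z) (γ i z) := rfl
    have h3 : DifferentiableAt ℝ (fun z => w2 (β i z) (γ i z)) z :=
      (ww_smooth hβ.toF1On hγ.toF1On i z hz).differentiableAt (by simp)
    rw [e, w2_fderiv h1 h2 h3, w2_fderiv h1 h2 h3, w2_fderiv h1 h2 h3, hβ.closed i z hz v u,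
      hβ.closed i z hz w u, hβ.closed i z hz w v, hγ.closed i z hz v u, hγ.closed i z hz w u,
      hγ.closed i z hz w v]
    ring

theorem real_ww {β γ : Fin S.N → Cm d → L1 d} (hβ : Real1 S β) (hγ : Real1 S γ) :
    Real2 S (ww β γ) := by
  intro i z hz u v
  show (β i z u * γ i z v - β i z v * γ i z u).im = 0
  simp [Complex.mul_im, hβ i z hz u, hβ i z hz v, hγ i z hz u, hγ i z hz v]

theorem pull_ww {E' Γ' : Type} [TopologicalSpace E'] [Group Γ'] [MulAction Γ' E']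
    {S' : Sheets d E' Γ'} {τ : E → E'} {β γ : Fin S.N → Cm d → L1 d}
    {β' γ' : Fin S'.N → Cm d → L1 d} (hβ : Pull1 S S' τ β β') (hγ : Pull1 S S' τ γ γ') :
    Pull2 S S' τ (ww β γ) (ww β' γ') := by
  intro i j z hz z' hz' ψ hψ u v
  show β i z u * γ i z v - β i z v * γ i z u = _
  rw [hβ i j z hz z' hz' ψ hψ u, hβ i j z hz z' hz' ψ hψ v, hγ i j z hz z' hz' ψ hψ u,
    hγ i j z hz z' hz' ψ hψ v]
  rfl

theorem smul_contDiffAt {f : Cm d → ℂ} {β : Cm d → L1 d} {z : Cm d} (hf : ContDiffAt ℝ ∞ f z)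
    (hβ : ContDiffAt ℝ ∞ β z) : ContDiffAt ℝ ∞ (fun z => f z • β z) z := hf.smul hβ

theorem smul_fderiv {f : Cm d → ℂ} {β : Cm d → L1 d} {z : Cm d} (hf : DifferentiableAt ℝ f z)
    (hβ : DifferentiableAt ℝ β z) (hw : DifferentiableAt ℝ (fun z => f z • β z) z)
    (u v : Cm d) :
    fderiv ℝ (fun z => f z • β z) z u v = fderiv ℝ f z u * β z v + f z * fderiv ℝ β z u v := by
  have h0 : fderiv ℝ (fun z => f z • β z) z u v = fderiv ℝ (fun z => (f z • β z) v) z u := by
    rw [(fd1 hw v).fderiv]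
    rfl
  rw [h0]
  have h1 : HasFDerivAt (fun z => (f z • β z) v)
      (f z • (fderiv ℝ β z).flip v + β z v • fderiv ℝ f z) z :=
    hf.hasFDerivAt.mul (fd1 hβ v)
  rw [h1.fderiv]
  show f z * fderiv ℝ β z u v + β z v * fderiv ℝ f z u = _
  ring

/-- `df ∧ γ` is exact. -/
theorem exact_ww_left {β β' γ : Fin S.N → Cm d → L1 d} (hγ : Cl1 S γ) (h : Ex1 S β β') :
    Exact S (fun i z => ww β γ i z - ww β' γ i z) := by
  obtain ⟨f, hf, hd⟩ := h
  refine ⟨fun i z => f (S.σ i z) • γ i z, ⟨fun i z hz hV => ?_, fun i j z hz z' hz' hV ψ hψ v => ?_⟩,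
    fun i z hz hV u v => ?_⟩
  · exact smul_contDiffAt (hf i z hz hV) (hγ.smooth i z hz hV)
  · show f (S.σ i z) * γ i z v = f (S.σ j z') * γ j z' (fderiv ℝ ψ z v)
    rw [hγ.change i j z hz z' hz' hV ψ hψ v]
    have h1 : S.σ i z = S.σ j z' := by
      have := hψ.2.2.self_of_nhds
      rw [hψ.2.1] at this
      exact this
    rw [h1]
  · have h1 : DifferentiableAt ℝ (fun u => f (S.σ i u)) z :=
      (hf i z hz hV).differentiableAt (by simp)
    have h2 : DifferentiableAt ℝ (γ i) z := (hγ.smooth i z hz hV).differentiableAt (by simp)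
    have h3 : DifferentiableAt ℝ (fun z => f (S.σ i z) • γ i z) z :=
      (smul_contDiffAt (hf i z hz hV) (hγ.smooth i z hz hV)).differentiableAt (by simp)
    rw [smul_fderiv h1 h2 h3, smul_fderiv h1 h2 h3, hd i z hz hV, hγ.closed i z hz v u]
    show _ = (β i z u * γ i z v - β i z v * γ i z u) - (β' i z u * γ i z v - β' i z v * γ i z u)
    show ((β i z u - β' i z u) * γ i z v + _) - ((β i z v - β' i z v) * γ i z u + _) = _
    ring

/-- `β ∧ dg` is exact. -/
theorem exact_ww_right {β γ γ' : Fin S.N → Cm d → L1 d} (hβ : Cl1 S β) (h : Ex1 S γ γ') :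
    Exact S (fun i z => ww β γ i z - ww β γ' i z) := by
  refine exact_congr (exact_smul (exact_ww_left hβ h) (-1)) fun i z _ => l2_ext fun u v => ?_
  show -1 * ((γ i z u * β i z v - γ i z v * β i z u) - (γ' i z u * β i z v - γ' i z v * β i z u)) =
    (β i z u * γ i z v - β i z v * γ i z u) - (β i z u * γ' i z v - β i z v * γ' i z u)
  ring

theorem exact_trans {a b c : Fin S.N → Cm d → L2 d} (h : Exact S (fun i z => a i z - b i z))
    (h' : Exact S (fun i z => b i z - c i z)) : Exact S (fun i z => a i z - c i z) := by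
  refine exact_congr (exact_add h h') fun i z _ => l2_ext fun u v => ?_
  show (a i z u v - b i z u v) + (b i z u v - c i z u v) = a i z u v - c i z u v
  ring

/-- **The class of `β ∧ γ` depends only on the classes of `β` and `γ`.** -/
theorem exact_ww {β β' γ γ' : Fin S.N → Cm d → L1 d} (hβ' : Cl1 S β') (hγ : Cl1 S γ)
    (h : Ex1 S β β') (h' : Ex1 S γ γ') : Exact S (fun i z => ww β γ i z - ww β' γ' i z) :=
  exact_trans (exact_ww_left hγ h) (exact_ww_right hβ' h')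

end

end Vale.Agent.P281.H191.HKT
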