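import Vale.Agent.P281.H191.HKT.Th
import Vale.Agent.P281.H191.HKT.Arith
import Vale.Agent.P281.H191.HK.Pull2
import Vale.Agent.P281.H406.HK.Forms
import Vale.Agent.P281.H83.HKT.Spec

/-!
# P281, project T-HKT (helper191): the blocks BIL, PULL, TWO, ARITH
-/

open Set Filter Metric MeasureTheory Vale.Agent.P281.H713 Vale.Agent.P272.K
open scoped Topology ContDiff ComplexConjugate

noncomputable section

namespace Vale.Agent.P281.H191.HKT

open Vale.Agent.P281.H64.TK Vale.Agent.P281.H64.TK.TS Vale.Agent.P281.H747.TS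
open Vale.Agent.P281.H83.HK (kw)
open Vale.Agent.P281.H83.HKT
open Vale.Agent.P281.H191.HK (exact_self pull_mark)

/-! ### Algebra of the marking -/

section
variable {a d : ℕ} {E Γ : Type} [TopologicalSpace E] [Group Γ] [MulAction Γ E]
  {S : Sheets d E Γ}

/-- The Gram matrix of `bT` on the basis of a marking. -/
def BT (S : Sheets d E Γ) (u : Fin S.N → Cm d → Matrix (Fin a) (Fin d) ℂ) {n : ℕ}
    (M : Mark2 S n) (c : Fin S.N → Cm d → L2 d) : Matrix (Fin n) (Fin n) ℝ :=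
  Matrix.of fun k l => (bT S u (M.b k) (M.b l) c).re

theorem BT_symm (hd : 1 < d) (u : Fin S.N → Cm d → Matrix (Fin a) (Fin d) ℂ) {n : ℕ}
    (M : Mark2 S n) (c : Fin S.N → Cm d → L2 d) (k l : Fin n) : BT S u M c k l = BT S u M c l k := by
  show (bT S u (M.b k) (M.b l) c).re = (bT S u (M.b l) (M.b k) c).re
  rw [bT_comm hd]

theorem markT_form {u : Fin S.N → Cm d → Matrix (Fin a) (Fin d) ℂ} {κ : ℝ}
    {c : Fin S.N → Cm d → L2 d} {m : ℕ} {B : Matrix (Fin m) (Fin m) ℝ} (T : MarkT S u κ c B) :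
    (κ⁻¹ • BT S u T.M c) = (rm T.J).transpose * B * rm T.J := by
  ext k l
  rw [← T.form k l]
  show κ⁻¹ * (bT S u (T.M.b k) (T.M.b l) c).re = _
  rw [div_eq_inv_mul]

end

/-- **BIL** -/
theorem bil_t : BilTStmt := by
  intro a d E Γ _ _ _ _ _ _ S u κ c m B T α β hd hu hc hcr hα hβ
  rw [bT_cl (by omega) hu T.M hc hcr hα hβ]
  have h1 : ∀ k l, ((bT S u (T.M.b k) (T.M.b l) c).re : ℂ) / κ =
      ∑ i, ∑ j, ((T.J i k : ℤ) : ℂ) * ((T.J j l : ℤ) : ℂ) * (B i j : ℂ) := by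
    intro k l
    have h2 := T.form k l
    have h3 : (((bT S u (T.M.b k) (T.M.b l) c).re / κ : ℝ) : ℂ) =
        ∑ i, ∑ j, ((T.J i k : ℤ) : ℂ) * ((T.J j l : ℤ) : ℂ) * (B i j : ℂ) := by
      rw [h2]
      simp only [Matrix.mul_apply, Matrix.transpose_apply, Matrix.map_apply, Finset.sum_mul]
      push_cast
      rw [Finset.sum_comm]
      refine Finset.sum_congr rfl fun i _ => Finset.sum_congr rfl fun j _ => ?_
      ring
    rw [← h3]
    push_cast
    rfl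
  have h4 : (∑ k, ∑ l, T.M.cl α k * T.M.cl β l * ((bT S u (T.M.b k) (T.M.b l) c).re : ℂ)) / κ =
      ∑ k, ∑ l, T.M.cl α k * T.M.cl β l *
        ∑ i, ∑ j, ((T.J i k : ℤ) : ℂ) * ((T.J j l : ℤ) : ℂ) * (B i j : ℂ) := by
    rw [Finset.sum_div]
    refine Finset.sum_congr rfl fun k _ => ?_
    rw [Finset.sum_div]
    refine Finset.sum_congr rfl fun l _ => ?_
    rw [mul_div_assoc, h1]
  rw [h4]
  have e1 : ∀ f : Fin m → Fin m → Fin T.n → Fin T.n → ℂ,
      ∑ i, ∑ j, ∑ k, ∑ l, f i j k l = ∑ k, ∑ l, ∑ i, ∑ j, f i j k l := by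
    intro f
    calc ∑ i, ∑ j, ∑ k, ∑ l, f i j k l = ∑ i, ∑ k, ∑ j, ∑ l, f i j k l :=
          Finset.sum_congr rfl fun i _ => Finset.sum_comm
      _ = ∑ k, ∑ i, ∑ j, ∑ l, f i j k l := Finset.sum_comm
      _ = ∑ k, ∑ i, ∑ l, ∑ j, f i j k l :=
          Finset.sum_congr rfl fun k _ => Finset.sum_congr rfl fun i _ => Finset.sum_comm
      _ = ∑ k, ∑ l, ∑ i, ∑ j, f i j k l := Finset.sum_congr rfl fun k _ => Finset.sum_comm
  have h5 : bil B (T.cls α) (T.cls β) = ∑ i, ∑ j, ∑ k, ∑ l,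
      T.M.cl α k * T.M.cl β l * (((T.J i k : ℤ) : ℂ) * ((T.J j l : ℤ) : ℂ) * (B i j : ℂ)) := by
    unfold bil
    refine Finset.sum_congr rfl fun i _ => Finset.sum_congr rfl fun j _ => ?_
    have h6 : T.cls α i = ∑ k, ((T.J i k : ℤ) : ℂ) * T.M.cl α k := rfl
    have h7 : T.cls β j = ∑ l, ((T.J j l : ℤ) : ℂ) * T.M.cl β l := rfl
    rw [h6, h7, mul_assoc, Finset.sum_mul_sum, Finset.mul_sum]
    refine Finset.sum_congr rfl fun k _ => ?_
    rw [Finset.mul_sum]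
    refine Finset.sum_congr rfl fun l _ => ?_
    ring
  rw [h5, e1]
  refine Finset.sum_congr rfl fun k _ => Finset.sum_congr rfl fun l _ => ?_
  simp only [Finset.mul_sum]

/-- **ARITH** -/
theorem arith : ArithStmt := by
  intro a d E Γ _ _ _ _ _ _ S u κ c hd hu hc hcr hκ hrad
  obtain ⟨n, m₀, M, J₀, hJ⟩ := hrad
  have hq : ∀ k l, (κ⁻¹ • BT S u M c) k l = (κ⁻¹ • BT S u M c) l k := by
    intro k l
    show κ⁻¹ * BT S u M c k l = κ⁻¹ * BT S u M c l k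
    rw [BT_symm (by omega)]
  have hr : ∀ x : Fin n → ℝ, (∀ l, ∑ k, x k * (κ⁻¹ • BT S u M c) k l = 0) ↔
      (rm J₀).mulVec x = 0 := by
    intro x
    rw [← hJ x]
    refine forall_congr' fun l => ?_
    have h1 : ∑ k, x k * (κ⁻¹ • BT S u M c) k l =
        κ⁻¹ * ∑ k, x k * (bT S u (M.b k) (M.b l) c).re := by
      rw [Finset.mul_sum]
      refine Finset.sum_congr rfl fun k _ => ?_
      show x k * (κ⁻¹ * (bT S u (M.b k) (M.b l) c).re) = _
      ring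
    rw [h1, mul_eq_zero]
    constructor
    · rintro (h | h)
      · exact absurd h (inv_ne_zero hκ.ne')
      · exact h
    · exact Or.inr
  obtain ⟨m, B, J, J', e1, e2, -, e3⟩ := arith_core (κ⁻¹ • BT S u M c) hq J₀ hr
  refine ⟨m, B, ⟨⟨n, M, J, J', e1, e2, fun k l => ?_⟩⟩⟩
  have h1 := congrFun (congrFun e3 k) l
  rw [← h1]
  show _ = κ⁻¹ * (bT S u (M.b k) (M.b l) c).re
  rw [div_eq_inv_mul]

/-- The two integrals of the relation `ThRel`. -/
theorem bT_rel {a d : ℕ} {E Γ : Type} [TopologicalSpace E] [Group Γ] [MulAction Γ E]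
    {S : Sheets d E Γ} {E' Γ' : Type} [TopologicalSpace E'] [Group Γ'] [MulAction Γ' E']
    {S' : Sheets d E' Γ'} {τ : E → E'} {u : Fin S.N → Cm d → Matrix (Fin a) (Fin d) ℂ}
    {u' : Fin S'.N → Cm d → Matrix (Fin a) (Fin d) ℂ} {κ κ' : ℝ} (hd : a + 2 ≤ d)
    (h : ThRel S u κ S' u' κ' τ) {x y c : Fin S.N → Cm d → L2 d}
    {x' y' c' : Fin S'.N → Cm d → L2 d} (hx : Cl2 S x) (hy : Cl2 S y) (hc : Cl2 S c)
    (hx' : Cl2 S' x') (hy' : Cl2 S' y') (hc' : Cl2 S' c') (px : Pull2 S S' τ x x')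
    (py : Pull2 S S' τ y y') (pc : Pull2 S S' τ c c') :
    (κ' : ℂ) * bT S u x y c = (κ : ℂ) * bT S' u' x' y' c' := by
  rw [bT_eq_tT hd, bT_eq_tT hd]
  refine h _ _ (xyc_prop hx hy hc) (xyc_prop hx' hy' hc') fun l => ?_
  unfold xyc
  split_ifs <;> assumption

theorem bT_rel' {a d : ℕ} {E Γ : Type} [TopologicalSpace E] [Group Γ] [MulAction Γ E]
    {S : Sheets d E Γ} {E' Γ' : Type} [TopologicalSpace E'] [Group Γ'] [MulAction Γ' E']
    {S' : Sheets d E' Γ'} {τ : E → E'} {u : Fin S.N → Cm d → Matrix (Fin a) (Fin d) ℂ}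
    {u' : Fin S'.N → Cm d → Matrix (Fin a) (Fin d) ℂ} {κ κ' : ℝ} (hd : a + 2 ≤ d) (hκ : 0 < κ)
    (hκ' : 0 < κ')
    (h : ThRel S u κ S' u' κ' τ) {x y c : Fin S.N → Cm d → L2 d}
    {x' y' c' : Fin S'.N → Cm d → L2 d} (hx : Cl2 S x) (hy : Cl2 S y) (hc : Cl2 S c)
    (hx' : Cl2 S' x') (hy' : Cl2 S' y') (hc' : Cl2 S' c') (px : Pull2 S S' τ x x')
    (py : Pull2 S S' τ y y') (pc : Pull2 S S' τ c c') :
    (bT S u x y c).re / κ = (bT S' u' x' y' c').re / κ' := by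
  have h1 := congrArg Complex.re (bT_rel hd h hx hy hc hx' hy' hc' px py pc)
  rw [Complex.re_ofReal_mul, Complex.re_ofReal_mul] at h1
  rw [div_eq_div_iff hκ.ne' hκ'.ne']
  linarith

/-- **PULL** -/
theorem pullT : PullTStmt := by
  intro a d E Γ _ _ _ _ _ _ S E' Γ' _ _ _ _ _ _ S' τ w w' u u' κ κ' m B T' kf hd hτ hw hw' hu hu'
    hκ hκ' hth hk hp he
  have h0 : 0 < d := by omega
  obtain ⟨M, hb, hcl⟩ := pull_mark H864.TS.pull S S' τ T'.M h0 hτ
  have cw : Cl2 S (kw w) := ((H406.HK.forms d E Γ S h0).2.1 w hw).1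
  have cw' : Cl2 S' (kw w') := ((H406.HK.forms d E' Γ' S' h0).2.1 w' hw').1
  refine ⟨⟨T'.n, M, T'.J, T'.J', T'.inv, T'.unit, fun k l => ?_⟩, ?_, ?_⟩
  · rw [← T'.form k l]
    have h1 : bT S u (M.b k) (M.b l) (kw w) = bT S u (M.b k) (M.b l) kf :=
      (bT_class hu (M.closed k) (M.closed l) hk (M.closed k) (M.closed l) cw (exact_self _)
        (exact_self _) he).symm
    rw [h1]
    exact bT_rel' hd hκ hκ' hth (M.closed k) (M.closed l) hk (T'.M.closed k) (T'.M.closed l) cw'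
      (hb k) (hb l) hp
  · have h1 : M.cl (kw w) = M.cl kf := by
      have h2 := cl_of_exact M (cl2_sub hk cw) he
      have h3 := cl_add M (cl2_sub hk cw) cw
      rw [h2, zero_add] at h3
      rw [← h3]
      exact cl_congr M (cl2_add (cl2_sub hk cw) cw) fun i z _ => sub_add_cancel (kf i z) (kw w i z)
    funext j
    show (((T'.J.map (Int.cast : ℤ → ℂ)).mulVec (M.cl (kw w))) j).re =
      (((T'.J.map (Int.cast : ℤ → ℂ)).mulVec (T'.M.cl (kw w'))) j).re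
    rw [h1, hcl kf (kw w') hk cw' hp]
  · intro α α' hα hα' hpa
    show (T'.J.map (Int.cast : ℤ → ℂ)).mulVec (M.cl α) =
      (T'.J.map (Int.cast : ℤ → ℂ)).mulVec (T'.M.cl α')
    rw [hcl α α' hα hα' hpa]

/-- The coordinates in another marking. -/
theorem cl_change' {d : ℕ} {E Γ : Type} [TopologicalSpace E] [Group Γ] [MulAction Γ E]
    {S : Sheets d E Γ} {n n' : ℕ} (M : Mark2 S n) (M' : Mark2 S n') (a : Fin n → Fin n' → ℤ)
    (ha : ∀ k j, M'.cl (M.b k) j = (a k j : ℂ)) {α : Fin S.N → Cm d → L2 d} (hα : Cl2 S α) :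
    M'.cl α = ((Matrix.of fun j k => a k j).map (Int.cast : ℤ → ℂ)).mulVec (M.cl α) := by
  have hγ : Cl2 S (fun i z => ∑ k, M.cl α k • M.b k i z) :=
    cl2_sum Finset.univ (M.cl α) fun k _ => M.closed k
  have h1 : M'.cl (fun i z => α i z - ∑ k, M.cl α k • M.b k i z) = 0 :=
    cl_of_exact M' (cl2_sub hα hγ) (M.ex α hα)
  have h2 := cl_add M' (cl2_sub hα hγ) hγ
  rw [h1, zero_add, cl_sum M' Finset.univ (M.cl α) fun k _ => M.closed k] at h2
  have h3 : M'.cl (fun i z => (α i z - ∑ k, M.cl α k • M.b k i z) +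
      ∑ k, M.cl α k • M.b k i z) = M'.cl α :=
    (cl_congr M' hα fun i z _ => (sub_add_cancel (α i z) _).symm).symm
  rw [← h3, h2]
  funext j
  rw [Finset.sum_apply]
  show ∑ k, (M.cl α k • M'.cl (M.b k)) j = ∑ k, ((a k j : ℤ) : ℂ) * M.cl α k
  refine Finset.sum_congr rfl fun k _ => ?_
  rw [Pi.smul_apply, ha, smul_eq_mul, mul_comm]

/-- The matrices of the change of marking are inverse to each other. -/
theorem change_inv {d : ℕ} {E Γ : Type} [TopologicalSpace E] [Group Γ] [MulAction Γ E]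
    {S : Sheets d E Γ} {n n' : ℕ} (M : Mark2 S n) (M' : Mark2 S n') (a : Fin n → Fin n' → ℤ)
    (ha : ∀ k j, M'.cl (M.b k) j = (a k j : ℂ)) (a' : Fin n' → Fin n → ℤ)
    (ha' : ∀ k j, M.cl (M'.b k) j = (a' k j : ℂ)) :
    (Matrix.of fun j k => a' k j) * (Matrix.of fun j k => a k j) =
      (1 : Matrix (Fin n) (Fin n) ℤ) := by
  ext i k
  have h1 := cl_change' M' M a' ha' (M.closed k)
  rw [cl_b] at h1
  have h2 := congrFun h1 i
  have h3 : ((Matrix.of fun j k => a' k j).map (Int.cast : ℤ → ℂ)).mulVec (M'.cl (M.b k)) i =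
      ((∑ j, a' j i * a k j : ℤ) : ℂ) := by
    show ∑ j, ((a' j i : ℤ) : ℂ) * M'.cl (M.b k) j = _
    push_cast
    exact Finset.sum_congr rfl fun j _ => by rw [ha]
  rw [h3] at h2
  rw [Matrix.mul_apply]
  show ∑ j, a' j i * a k j = (1 : Matrix (Fin n) (Fin n) ℤ) i k
  rw [Matrix.one_apply]
  have h4 : (Pi.single k (1 : ℂ) : Fin n → ℂ) i = ((if i = k then (1 : ℤ) else 0 : ℤ) : ℂ) := by
    by_cases h : i = k
    · subst h; simp
    · rw [Pi.single_eq_of_ne h, if_neg h, Int.cast_zero]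
  rw [h4] at h2
  exact (Int.cast_injective h2).symm

/-- **TWO** -/
theorem twoT : TwoTStmt := by
  intro a d E Γ _ _ _ _ _ _ S u u' κ κ' c m B B' T T' hd hu hu' hκ hκ' hth hc hcr
  choose b hb using fun k j => T'.M.intcl (T.M.b k) (T.M.closed k) (T.M.int k) j
  choose b' hb' using fun k j => T.M.intcl (T'.M.b k) (T'.M.closed k) (T'.M.int k) j
  have h10 := change_inv T.M T'.M b hb b' hb'
  have h01 := change_inv T'.M T.M b' hb' b hb
  have hself : ∀ α : Fin S.N → Cm d → L2 d, Cl2 S α → Pull2 S S id α α := fun α hα i j z hz z' hz'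
    ψ hψ p q => hα.change i j z hz z' hz' (mem_univ _) ψ hψ p q
  have hq : (rm (Matrix.of fun j k => b k j)).transpose * (κ'⁻¹ • BT S u' T'.M c) *
      rm (Matrix.of fun j k => b k j) = κ⁻¹ • BT S u T.M c := by
    ext k l
    have h1 := bT_rel' hd hκ hκ' hth (T.M.closed k) (T.M.closed l) hc (T.M.closed k)
      (T.M.closed l) hc (hself _ (T.M.closed k)) (hself _ (T.M.closed l)) (hself _ hc)
    have h2 : (κ⁻¹ • BT S u T.M c) k l = (bT S u' (T.M.b k) (T.M.b l) c).re / κ' := by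
      rw [← h1, div_eq_inv_mul]
      rfl
    rw [h2, bT_cl (by omega) hu' T'.M hc hcr (T.M.closed k) (T.M.closed l)]
    have h3 : ∀ i j, T'.M.cl (T.M.b k) i * T'.M.cl (T.M.b l) j *
        ((bT S u' (T'.M.b i) (T'.M.b j) c).re : ℂ) =
        (((b k i : ℝ) * (b l j : ℝ) * (bT S u' (T'.M.b i) (T'.M.b j) c).re : ℝ) : ℂ) := by
      intro i j
      rw [hb, hb]
      push_cast
      ring
    have h4 : (∑ i, ∑ j, T'.M.cl (T.M.b k) i * T'.M.cl (T.M.b l) j *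
        ((bT S u' (T'.M.b i) (T'.M.b j) c).re : ℂ)) =
        ((∑ i, ∑ j, (b k i : ℝ) * (b l j : ℝ) * (bT S u' (T'.M.b i) (T'.M.b j) c).re : ℝ) : ℂ) := by
      rw [Complex.ofReal_sum]
      refine Finset.sum_congr rfl fun i _ => ?_
      rw [Complex.ofReal_sum]
      exact Finset.sum_congr rfl fun j _ => h3 i j
    rw [h4, Complex.ofReal_re, Matrix.mul_apply, div_eq_inv_mul, Finset.sum_comm, Finset.mul_sum]
    refine Finset.sum_congr rfl fun j _ => ?_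
    rw [Matrix.mul_apply, Finset.sum_mul, Finset.mul_sum]
    refine Finset.sum_congr rfl fun i _ => ?_
    show (b k i : ℝ) * (κ'⁻¹ * (bT S u' (T'.M.b i) (T'.M.b j) c).re) * (b l j : ℝ) = _
    ring
  obtain ⟨A, A', e1, e2, e3, e4⟩ := two_core (κ⁻¹ • BT S u T.M c) (κ'⁻¹ • BT S u' T'.M c)
    (Matrix.of fun j k => b k j) (Matrix.of fun j k => b' k j) h01 h10 hq B T.J T.J' T.inv T.unit
    (markT_form T) B' T'.J T'.J' T'.inv T'.unit (markT_form T')
  refine ⟨A, Matrix.isUnit_det_of_right_inverse e1, fun α hα => ?_, e4⟩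
  have h5 : ∀ {p q r : ℕ} (X : Matrix (Fin p) (Fin q) ℤ) (Y : Matrix (Fin q) (Fin r) ℤ),
      (X * Y).map (Int.cast : ℤ → ℂ) = X.map (Int.cast : ℤ → ℂ) * Y.map (Int.cast : ℤ → ℂ) :=
    fun X Y => Matrix.map_mul (f := Int.castRingHom ℂ)
  show (T'.J.map (Int.cast : ℤ → ℂ)).mulVec (T'.M.cl α) =
    (A.map (Int.cast : ℤ → ℂ)).mulVec ((T.J.map (Int.cast : ℤ → ℂ)).mulVec (T.M.cl α))
  rw [cl_change' T.M T'.M b hb hα, Matrix.mulVec_mulVec, Matrix.mulVec_mulVec, ← h5, ← h5, e3]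

end Vale.Agent.P281.H191.HKT
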